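import Vale.Agent.P219.TPH.NiceH
import Vale.Agent.P219.TPH.FinalH

/-! # Certificates with strictness, curvature `≤ -k²` -/

open MeasureTheory Set Metric Filter Topology
open scoped ENNReal ContDiff

namespace Vale.Agent.P219.TPH

open Vale.Agent.P219.TP

variable {n : ℕ} {k R : ℝ}

/-- Certificate with the strictness needed for the equality case: exact field `φ`, smooth for
`r > 0` (`Nice`), the conditions c1, c7 strict, equality in c6 only for the chords of the model ball: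
`tanh (k r/2) = a tanh (k R) = b tanh (k R)`. -/
structure CertHR (n : ℕ) (k R : ℝ) where
  lam : ℝ
  s : ℝ
  F : ℝ
  f : ℝ → ℝ
  φ : ℝ → ℝ → ℝ
  φr : ℝ → ℝ → ℝ
  φa : ℝ → ℝ → ℝ
  lam_pos : 0 < lam
  s_nonneg : 0 ≤ s
  f_cont : Continuous f
  f_nonneg : ∀ a ∈ Icc (0 : ℝ) 1, 0 ≤ f a
  hF : ∀ e : E n, ‖e‖ = 1 →
    ∫ u : sphere (0 : E n) 1, f (max 0 (inner ℝ e (u : E n))) * max 0 (inner ℝ e (u : E n))
      ∂((volume : Measure (E n)).toSphere) ≤ F
  balance : lam * AR n k R ^ 2 ≤ s * sig n * VR n k R - F * AR n k R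
  nice : Nice n k φ φr φa lam (H0 n k R) s f
  c1s : ∀ r a b : ℝ, 0 < r → 0 ≤ a → a ≤ 1 → 0 ≤ b → b ≤ 1 →
    H0 n k R / 2 * (φ r b * a) < NN k (n - 1) φ φr φa lam r a b
  c7s : ∀ r a b : ℝ, 0 < r → 0 < a → a ≤ 1 → 0 < b → b ≤ 1 →
    0 < KN k (n - 1) φ φr φa lam (H0 n k R) r a b + a * b * √(φ r a * φ r b) / sn k r
  c6s : ∀ r a b : ℝ, 0 < r → 0 < a → a ≤ 1 → 0 < b → b ≤ 1 →
    KN k (n - 1) φ φr φa lam (H0 n k R) r a b * sn k r ^ (n - 1) =
      a * b * (s * r - (f a + f b) / 2) →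
    sn k (r / 2) * cs k R = a * (cs k (r / 2) * sn k R) ∧
      sn k (r / 2) * cs k R = b * (cs k (r / 2) * sn k R)

/-- PROOF: see `good_of_nice` (same proof, the cutoff field is explicit). -/
theorem good_nicePhi (hn : 2 ≤ n) (hk : 0 ≤ k) {φ φr φa : ℝ → ℝ → ℝ}
    {lam H s : ℝ} {f : ℝ → ℝ} (hlam : 0 ≤ lam) (hH : 0 ≤ H) (hs : 0 ≤ s)
    (hf0 : ∀ a ∈ Icc (0 : ℝ) 1, 0 ≤ f a) (h : Nice n k φ φr φa lam H s f) {ε δ : ℝ} (hε : 0 < ε)
    (hδ : 0 < δ) (hsδ : s * δ ≤ ε) :
    Good n k (nicePhi δ φ) (lam + ε) H s (fun a => f a + ε) := by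
  have hφ0 : ∀ r a : ℝ, 0 < r → |a| ≤ 1 → 0 ≤ φ r a := by
    intro r a hr ha
    rw [← nice_abs h.even hr a]
    exact h.nonneg r |a| hr (abs_nonneg a) ha
  have hsq : ∀ a : ℝ, |a| ≤ 1 → a ^ 2 ≤ 1 := fun a ha => (sq_le_one_iff_abs_le_one a).2 ha
  refine ⟨⟨1, one_pos, (nicePhi_contDiff hδ h.smooth).contDiffOn⟩, ?_, ?_, ?_, ?_, ?_⟩
  · -- nonneg
    intro r a hr ha
    rcases hr.eq_or_lt with h0 | h0
    · rw [← h0]
      rw [nicePhi_zero hδ φ (by simp; positivity)]
    · rw [nicePhi_sq φ h0 a]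
      exact div_nonneg (mul_nonneg (niceChi_nonneg δ r) (hφ0 r a h0 ha)) h0.le
  · -- c1
    intro r a b hr ha hb
    have hb0 := hφ0 r b hr hb
    have ha0 := hφ0 r a hr ha
    have h1 := h.c1 r |a| |b| hr (abs_nonneg a) ha (abs_nonneg b) hb
    rw [nice_NN_abs h.deriv_r h.deriv_a h.even hr a b, nice_abs h.even hr b] at h1
    have h2 := nice_rem hδ hlam (ε := ε) ha0 hb0 (hsq a ha) (hsq b hb)
    rw [nice_NH hδ hk h.smooth h.deriv_r h.deriv_a (n - 1) lam ε hr a b, nice_ph φ hr b]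
    have h3 : max a 0 ≤ |a| := max_le (le_abs_self a) (abs_nonneg a)
    have h4 : φ r b * max a 0 ≤ φ r b * |a| := mul_le_mul_of_nonneg_left h3 hb0
    have hc0 := niceChi_nonneg δ r
    have h5 : H / 2 * (φ r b * max a 0) ≤ NN k (n - 1) φ φr φa lam r a b :=
      le_trans (mul_le_mul_of_nonneg_left h4 (by linarith)) h1
    have h6 := mul_le_mul_of_nonneg_left h5 hc0
    have e : H / 2 * (niceChi δ r * φ r b * max a 0) =
      niceChi δ r * (H / 2 * (φ r b * max a 0)) := by ring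
    rw [e]
    linarith
  · -- c3
    intro a ha
    have hfun : Set.EqOn (fun r => ph (nicePhi δ φ) r a * sn k r ^ (n - 1))
        (fun r => niceChi δ r * φ r a * sn k r ^ (n - 1)) (Ioi 0) := by
      intro r hr
      simp only
      rw [nice_ph φ hr a]
    refine MonotoneOn.congr ?_ hfun.symm
    have hder : ∀ r ∈ Ioi (0 : ℝ), HasDerivAt (fun r => niceChi δ r * φ r a * sn k r ^ (n - 1))
        ((deriv (niceChi δ) r * φ r a + niceChi δ r * φr r a) * sn k r ^ (n - 1) +
          niceChi δ r * φ r a * (((n - 1 : ℕ) : ℝ) * sn k r ^ (n - 1 - 1) * cs k r)) r := by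
      intro r hr
      exact ((niceChi_hasDerivAt δ r).mul (h.deriv_r r a hr)).mul
        ((hasDerivAt_sn k r).pow (n - 1))
    refine monotoneOn_of_deriv_nonneg (convex_Ioi 0) ?_ ?_ ?_
    · intro r hr
      exact (hder r hr).continuousAt.continuousWithinAt
    · intro r hr
      rw [interior_Ioi] at hr
      exact (hder r hr).differentiableAt.differentiableWithinAt
    · intro r hr
      rw [interior_Ioi] at hr
      rw [(hder r hr).deriv]
      have hr' : 0 < r := hr
      have hsn : 0 < sn k r := sn_pos hk hr'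
      have ha0 := hφ0 r a hr' ha
      have h3 := h.c3 r |a| hr' (abs_nonneg a) ha
      rw [nice_abs h.even hr' a, nice_abs (nice_even_r h.deriv_r h.even) hr' a] at h3
      have hcast : ((n - 1 : ℕ) : ℝ) = (n : ℝ) - 1 := by
        rw [Nat.cast_sub (by omega)]
        simp
      have hpow : sn k r ^ (n - 1) = sn k r ^ (n - 1 - 1) * sn k r := by
        rw [← pow_succ]
        congr 1
        omega
      have h4 : 0 ≤ deriv (niceChi δ) r * φ r a * sn k r ^ (n - 1) :=
        mul_nonneg (mul_nonneg (niceChi_deriv_nonneg hδ r) ha0) (pow_nonneg hsn.le _)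
      have h5 : 0 ≤ niceChi δ r * sn k r ^ (n - 1) *
          (φr r a + ((n : ℝ) - 1) * (cs k r / sn k r) * φ r a) :=
        mul_nonneg (mul_nonneg (niceChi_nonneg δ r) (pow_nonneg hsn.le _)) h3
      have h6 : niceChi δ r * sn k r ^ (n - 1) *
          (φr r a + ((n : ℝ) - 1) * (cs k r / sn k r) * φ r a) =
          niceChi δ r * φr r a * sn k r ^ (n - 1) +
          niceChi δ r * φ r a * (((n : ℝ) - 1) * sn k r ^ (n - 1 - 1) * cs k r) := by
        rw [hpow]
        field_simp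
      rw [hcast]
      rw [h6] at h5
      linarith
  · -- c7
    intro r a b hr ha0 ha1 hb0 hb1
    have haa : |a| ≤ 1 := by rw [abs_of_nonneg ha0]; exact ha1
    have hbb : |b| ≤ 1 := by rw [abs_of_nonneg hb0]; exact hb1
    have h1 := hφ0 r a hr haa
    have h2 := hφ0 r b hr hbb
    have h3 := h.c7 r a b hr ha0 ha1 hb0 hb1
    have h4 := nice_rem hδ hlam (ε := ε) h1 h2 (hsq a haa) (hsq b hbb)
    rw [nice_KH hδ hk h.smooth h.deriv_r h.deriv_a (n - 1) lam ε H hr a b, nice_ph φ hr a,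
      nice_ph φ hr b]
    have hc0 := niceChi_nonneg δ r
    have e : √(niceChi δ r * φ r a * (niceChi δ r * φ r b)) =
        niceChi δ r * √(φ r a * φ r b) := by
      have : niceChi δ r * φ r a * (niceChi δ r * φ r b) =
          niceChi δ r ^ 2 * (φ r a * φ r b) := by ring
      rw [this, Real.sqrt_mul (sq_nonneg _), Real.sqrt_sq hc0]
    rw [e]
    have h5 := mul_nonneg hc0 h3
    have e2 : a * b * (niceChi δ r * √(φ r a * φ r b)) / sn k r =
        niceChi δ r * (a * b * √(φ r a * φ r b) / sn k r) := by ring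
    rw [e2]
    linarith
  · -- c6
    intro r a b hr ha0 ha1 hb0 hb1
    have haa : |a| ≤ 1 := by rw [abs_of_nonneg ha0]; exact ha1
    have hbb : |b| ≤ 1 := by rw [abs_of_nonneg hb0]; exact hb1
    have h1 := hφ0 r a hr haa
    have h2 := hφ0 r b hr hbb
    have h3 := h.c6 r a b hr ha0 ha1 hb0 hb1
    have h4 := nice_rem hδ hlam (ε := ε) h1 h2 (hsq a haa) (hsq b hbb)
    rw [nice_KH hδ hk h.smooth h.deriv_r h.deriv_a (n - 1) lam ε H hr a b]
    set rem := (1 - niceChi δ r) * lam + ε +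
        deriv (niceChi δ) r * (φ r a * (1 - b ^ 2) + φ r b * (1 - a ^ 2)) / 2 with hrem
    have hc0 := niceChi_nonneg δ r
    have hc1 := niceChi_le_one δ r
    have hsn : 0 ≤ sn k r ^ (n - 1) := pow_nonneg (sn_pos hk hr).le _
    have hfa := hf0 a ⟨ha0, ha1⟩
    have hfb := hf0 b ⟨hb0, hb1⟩
    have hab : 0 ≤ a * b := mul_nonneg ha0 hb0
    have h5 := mul_le_mul_of_nonneg_left h3 hc0
    have h6 : 0 ≤ rem * sn k r ^ (n - 1) := mul_nonneg (by linarith) hsn
    -- the cut part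
    have h7 : (1 - niceChi δ r) * (s * r) ≤ ε := by
      rcases le_or_gt δ r with hr1 | hr1
      · rw [niceChi_one hδ hr1]
        simp [hε.le]
      · have h8 : s * r ≤ s * δ := mul_le_mul_of_nonneg_left hr1.le hs
        have h9 : 0 ≤ s * r := mul_nonneg hs hr.le
        nlinarith
    have h8 : 0 ≤ (1 - niceChi δ r) * ((f a + f b) / 2) :=
      mul_nonneg (by linarith) (by linarith)
    have h9 : 0 ≤ a * b * (ε - (1 - niceChi δ r) * (s * r) +
        (1 - niceChi δ r) * ((f a + f b) / 2)) := mul_nonneg hab (by linarith)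
    have e : a * b * (s * r - (f a + ε + (f b + ε)) / 2) =
        niceChi δ r * (a * b * (s * r - (f a + f b) / 2)) -
        a * b * (ε - (1 - niceChi δ r) * (s * r) +
        (1 - niceChi δ r) * ((f a + f b) / 2)) := by ring
    rw [e]
    have e2 : (niceChi δ r * KN k (n - 1) φ φr φa lam H r a b + rem) * sn k r ^ (n - 1) =
        niceChi δ r * (KN k (n - 1) φ φr φa lam H r a b * sn k r ^ (n - 1)) +
        rem * sn k r ^ (n - 1) := by ring
    rw [e2]
    linarith

/-- The underlying certificate. PROOF: `good_of_nice`, `H0_nonneg`. -/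
noncomputable def CertHR.toCertH (hn : 2 ≤ n) (hk : 0 ≤ k) (hR : 0 < R) (C : CertHR n k R) :
    CertH n k R where
  lam := C.lam
  s := C.s
  F := C.F
  f := C.f
  lam_pos := C.lam_pos
  s_nonneg := C.s_nonneg
  f_cont := C.f_cont
  f_nonneg := C.f_nonneg
  hF := C.hF
  balance := C.balance
  approx := good_of_nice hn hk C.lam_pos.le (H0_nonneg hn hk hR) C.s_nonneg C.f_nonneg C.nice

end Vale.Agent.P219.TPH
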