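import Vale.Agent.P219.TPHR.GeoBallH

/-! # A set whose boundary consists of model chords is a ball -/

open MeasureTheory Set Metric Filter Topology
open scoped ENNReal ContDiff

namespace Vale.Agent.P219.TPH

open Vale.Agent.P219.TP

variable {n : ℕ} (G : Geo n)

section aux

variable {N : E n} {R : ℝ}

theorem eqb_sinh_cosh_lt {a b : ℝ} (h : a < b) :
    Real.sinh a * Real.cosh b < Real.sinh b * Real.cosh a := by
  have h1 : 0 < Real.sinh (b - a) := Real.sinh_pos_iff.2 (sub_pos.2 h)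
  rw [Real.sinh_sub] at h1
  linarith

theorem eqb_sinh_cosh_le {a b : ℝ} (h : a ≤ b) :
    Real.sinh a * Real.cosh b ≤ Real.sinh b * Real.cosh a := by
  have h1 : 0 ≤ Real.sinh (b - a) := Real.sinh_nonneg_iff.2 (sub_nonneg.2 h)
  rw [Real.sinh_sub] at h1
  linarith

/-- A smaller norm with the same component along `N`. -/
theorem eqb_mem_of_norm_le {v v' : E n} (hv : v ∈ regH N R) (hn : ‖v'‖ ≤ ‖v‖)
    (hi : (inner ℝ v' N : ℝ) = inner ℝ v N) : v' ∈ regH N R := by
  have hv' : Real.sinh (‖v‖ / 2) * Real.cosh R * ‖v‖ <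
    inner ℝ v N * (Real.cosh (‖v‖ / 2) * Real.sinh R) := hv
  have hC := Real.cosh_pos R
  have hc := Real.cosh_pos (‖v‖ / 2)
  have hc' := Real.cosh_pos (‖v'‖ / 2)
  have hs' : 0 ≤ Real.sinh (‖v'‖ / 2) := Real.sinh_nonneg_iff.2 (by positivity)
  have hs : 0 ≤ Real.sinh (‖v‖ / 2) := Real.sinh_nonneg_iff.2 (by positivity)
  have h1 : Real.sinh (‖v'‖ / 2) * Real.cosh (‖v‖ / 2) ≤
      Real.sinh (‖v‖ / 2) * Real.cosh (‖v'‖ / 2) := eqb_sinh_cosh_le (by linarith)
  have h2 : Real.sinh (‖v'‖ / 2) * Real.cosh (‖v‖ / 2) * ‖v'‖ ≤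
      Real.sinh (‖v‖ / 2) * Real.cosh (‖v'‖ / 2) * ‖v‖ :=
    mul_le_mul h1 hn (norm_nonneg _) (mul_nonneg hs hc'.le)
  have h3 : Real.cosh (‖v‖ / 2) * (Real.sinh (‖v'‖ / 2) * Real.cosh R * ‖v'‖) <
      Real.cosh (‖v‖ / 2) * (inner ℝ v' N * (Real.cosh (‖v'‖ / 2) * Real.sinh R)) := by
    calc Real.cosh (‖v‖ / 2) * (Real.sinh (‖v'‖ / 2) * Real.cosh R * ‖v'‖)
        = Real.cosh R * (Real.sinh (‖v'‖ / 2) * Real.cosh (‖v‖ / 2) * ‖v'‖) := by ring
      _ ≤ Real.cosh R * (Real.sinh (‖v‖ / 2) * Real.cosh (‖v'‖ / 2) * ‖v‖) :=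
        mul_le_mul_of_nonneg_left h2 hC.le
      _ = Real.cosh (‖v'‖ / 2) * (Real.sinh (‖v‖ / 2) * Real.cosh R * ‖v‖) := by ring
      _ < Real.cosh (‖v'‖ / 2) * (inner ℝ v N * (Real.cosh (‖v‖ / 2) * Real.sinh R)) :=
        mul_lt_mul_of_pos_left hv' hc'
      _ = _ := by rw [hi]; ring
  exact lt_of_mul_lt_mul_left h3 hc.le

theorem eqb_smul_iff (hR : 0 < R) (hN : ‖N‖ = 1) (a : ℝ) :
    a • N ∈ regH N R ↔ 0 < a ∧ a < 2 * R := by
  have hsR : 0 < Real.sinh R := Real.sinh_pos_iff.2 hR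
  have hi : (inner ℝ (a • N) N : ℝ) = a := by
    rw [inner_smul_left, real_inner_self_eq_norm_sq, hN]; simp
  have hn : ‖a • N‖ = |a| := by rw [norm_smul, hN, mul_one, Real.norm_eq_abs]
  have h0 : a • N ∈ regH N R ↔ Real.sinh (|a| / 2) * Real.cosh R * |a| <
      a * (Real.cosh (|a| / 2) * Real.sinh R) := by
    show Real.sinh (‖a • N‖ / 2) * Real.cosh R * ‖a • N‖ <
      inner ℝ (a • N) N * (Real.cosh (‖a • N‖ / 2) * Real.sinh R) ↔ _
    rw [hi, hn]
  rw [h0]
  have hpos : 0 < Real.cosh (|a| / 2) * Real.sinh R := mul_pos (Real.cosh_pos _) hsR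
  have key : 0 < a → (Real.sinh (|a| / 2) * Real.cosh R * |a| <
      a * (Real.cosh (|a| / 2) * Real.sinh R) ↔ a < 2 * R) := by
    intro ha
    rw [abs_of_pos ha]
    constructor
    · intro h
      by_contra hcon
      have h1 := eqb_sinh_cosh_le (a := R) (b := a / 2) (by linarith [not_lt.1 hcon])
      nlinarith
    · intro h
      have h1 := eqb_sinh_cosh_lt (a := a / 2) (b := R) (by linarith)
      nlinarith
  constructor
  · intro h
    have ha : 0 < a := by
      have h1 : 0 ≤ Real.sinh (|a| / 2) * Real.cosh R * |a| := by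
        have : 0 ≤ Real.sinh (|a| / 2) := Real.sinh_nonneg_iff.2 (by positivity)
        have := Real.cosh_pos R
        positivity
      by_contra hcon
      have h2 : a * (Real.cosh (|a| / 2) * Real.sinh R) ≤ 0 :=
        mul_nonpos_of_nonpos_of_nonneg (not_lt.1 hcon) hpos.le
      linarith
    exact ⟨ha, (key ha).1 h⟩
  · rintro ⟨ha, h⟩
    exact (key ha).2 h

theorem eqb_preconnected (hR : 0 < R) (hN : ‖N‖ = 1) : IsPreconnected (regH N R) := by
  have hNN : (inner ℝ N N : ℝ) = 1 := by rw [real_inner_self_eq_norm_sq, hN]; norm_num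
  refine isPreconnected_of_forall (R • N) fun v hv => ?_
  set c : ℝ := inner ℝ v N with hc
  have hcv : |c| ≤ ‖v‖ := by
    have := abs_real_inner_le_norm v N
    rwa [hN, mul_one] at this
  have hcn : ‖c • N‖ ≤ ‖v‖ := by rwa [norm_smul, hN, mul_one, Real.norm_eq_abs]
  have hci : (inner ℝ (c • N) N : ℝ) = c := by
    rw [inner_smul_left, hNN]; simp
  have h1 : c • N ∈ regH N R := eqb_mem_of_norm_le hv hcn hci
  have h2 := (eqb_smul_iff hR hN c).1 h1
  have hseg1 : segment ℝ v (c • N) ⊆ regH N R := by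
    rintro _ ⟨a, b, ha, hb, hab, rfl⟩
    refine eqb_mem_of_norm_le hv ?_ ?_
    · calc ‖a • v + b • c • N‖ ≤ ‖a • v‖ + ‖b • c • N‖ := norm_add_le _ _
        _ = a * ‖v‖ + b * ‖c • N‖ := by
          rw [norm_smul, norm_smul b, Real.norm_of_nonneg ha, Real.norm_of_nonneg hb]
        _ ≤ a * ‖v‖ + b * ‖v‖ := by gcongr
        _ = ‖v‖ := by rw [← add_mul, hab, one_mul]
    · rw [inner_add_left, inner_smul_left, inner_smul_left, hci, ← hc]
      simp only [conj_trivial]
      rw [← add_mul, hab, one_mul]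
  have hseg2 : segment ℝ (c • N) (R • N) ⊆ regH N R := by
    rintro _ ⟨a, b, ha, hb, hab, rfl⟩
    rw [smul_smul, smul_smul, ← add_smul, eqb_smul_iff hR hN]
    have hb' : b = 1 - a := by linarith
    have ha1 : a ≤ 1 := by linarith
    subst hb'
    constructor
    · rcases ha.lt_or_eq with h | h
      · have := mul_pos h h2.1
        have := mul_nonneg hb hR.le
        linarith
      · rw [← h]; simpa using hR
    · rcases ha.lt_or_eq with h | h
      · have := mul_lt_mul_of_pos_left h2.2 h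
        nlinarith
      · rw [← h]; simp only [zero_mul, zero_add, sub_zero, one_mul]; linarith
  refine ⟨segment ℝ v (c • N) ∪ segment ℝ (c • N) (R • N), union_subset hseg1 hseg2,
    Or.inr (right_mem_segment _ _ _), Or.inl (left_mem_segment _ _ _), ?_⟩
  exact IsPreconnected.union (c • N) (right_mem_segment _ _ _) (left_mem_segment _ _ _)
    (convex_segment _ _).isPreconnected (convex_segment _ _).isPreconnected

end aux

/-- PROOF: compare `eq_ball` in TPR/RigGeo.lean. In the coordinates `lg p` the frontier of `Ω` is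
contained in the frontier of `regH N R`, a topological sphere; `regH N R` and the complement of
its closure are connected (`regH N R` is star-shaped with respect to every point near ... e.g.
use rays from `0`: `v ∈ regH ↔ ⟨v,N⟩ > 0` and `‖v‖ < 2 artanh (tanh R ⟨v,N⟩/‖v‖)`), `Ω` is open,
bounded and nonempty, so `Ω = ex p '' regH N R`. -/
theorem eq_ball_H (hn : 2 ≤ n) {Ω : Set (E n)} (ho : IsOpen Ω) (hb : Bornology.IsBounded Ω)
    (hne : Ω.Nonempty) {p N : E n} {R : ℝ} (hR : 0 < R) (hN : ‖N‖ = 1)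
    (hfr : ∀ q ∈ frontier Ω, q ≠ p →
      Real.sinh (‖G.lg p q‖ / 2) * Real.cosh R * ‖G.lg p q‖ =
        inner ℝ (G.lg p q) N * (Real.cosh (‖G.lg p q‖ / 2) * Real.sinh R)) :
    Ω = G.ex p '' regH N R ∧ ∀ v ∈ regH N R, ∃ s : ℝ, 1 ≤ s ∧ G.ex p (s • v) ∈ frontier Ω := by
  set e : E n ≃ₜ E n := exHomeo G p with he
  have hev : ∀ v, e v = G.ex p v := fun v => rfl
  set W : Set (E n) := e ⁻¹' Ω with hW
  have hWo : IsOpen W := ho.preimage e.continuous
  have hWfr' : frontier W = e ⁻¹' frontier Ω := by rw [hW, e.preimage_frontier]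
  have hWfr : ∀ v ∈ frontier W, Real.sinh (‖v‖ / 2) * Real.cosh R * ‖v‖ =
      inner ℝ v N * (Real.cosh (‖v‖ / 2) * Real.sinh R) := by
    intro v hv
    rw [hWfr'] at hv
    by_cases hq : e v = p
    · have h0 : v = 0 := by
        have h1 : G.ex p v = G.ex p 0 := by rw [G.ex_zero]; exact hq
        have h2 := congrArg (G.lg p) h1
        rwa [G.lg_ex, G.lg_ex] at h2
      rw [h0]; simp
    · have h1 := hfr (e v) hv hq
      rw [hev, G.lg_ex] at h1
      exact h1
  have hWne : W.Nonempty := by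
    obtain ⟨y, hy⟩ := hne
    refine ⟨e.symm y, ?_⟩
    rw [hW, mem_preimage, e.apply_symm_apply]
    exact hy
  have hWb : Bornology.IsBounded W := by
    have hc : IsCompact (closure Ω) := hb.isCompact_closure
    have hc2 : IsCompact (e.symm '' closure Ω) := hc.image e.symm.continuous
    refine hc2.isBounded.subset ?_
    intro v hv
    exact ⟨e v, subset_closure hv, e.symm_apply_apply v⟩
  have hconn : ∀ t : Set (E n), IsPreconnected t → (t ∩ W).Nonempty →
      (∀ y ∈ t, y ∉ frontier W) → t ⊆ W := by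
    intro t ht h1 h2
    refine ht.subset_left_of_subset_union hWo isClosed_closure.isOpen_compl
      (disjoint_compl_right_iff_subset.2 subset_closure) ?_ h1
    intro y hy
    by_cases hyW : y ∈ closure W
    · left
      by_contra hyn
      have : y ∈ frontier W := ⟨hyW, by rwa [hWo.interior_eq]⟩
      exact h2 y hy this
    · right; exact hyW
  have hray : ∀ v ∈ W, v ≠ 0 → ∃ s : ℝ, 1 ≤ s ∧ s • v ∈ frontier W := by
    intro v hv hv0
    by_contra hcon
    push Not at hcon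
    have hsub : (fun s : ℝ => s • v) '' Ici 1 ⊆ W := by
      refine hconn _ (isPreconnected_Ici.image _ (by fun_prop)) ?_ ?_
      · exact ⟨v, ⟨1, self_mem_Ici, by simp⟩, hv⟩
      · rintro _ ⟨t, ht, rfl⟩
        exact hcon t ht
    obtain ⟨M, hM⟩ := hWb.exists_norm_le
    have hvpos : 0 < ‖v‖ := norm_pos_iff.2 hv0
    set t : ℝ := max 1 ((M + 1) / ‖v‖) with ht
    have h1 := hM _ (hsub ⟨t, mem_Ici.2 (le_max_left _ _), rfl⟩)
    have h2 : M + 1 ≤ t * ‖v‖ := by
      rw [← div_le_iff₀ hvpos]; exact le_max_right _ _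
    simp only at h1
    rw [norm_smul, Real.norm_of_nonneg (zero_le_one.trans (le_max_left _ _) : (0 : ℝ) ≤ t)] at h1
    linarith
  have hnot : ∀ v ∈ W, v ∉ frontier W := by
    intro v hv hf
    rw [hWo.frontier_eq] at hf
    exact hf.2 hv
  have hsub0 : ∀ v ∈ W, v ≠ 0 → v ∈ regH N R := by
    intro v hv hv0
    obtain ⟨s, hs1, hs⟩ := hray v hv hv0
    have hs1' : 1 < s := by
      rcases hs1.lt_or_eq with h | h
      · exact h
      · exfalso
        rw [← h, one_smul] at hs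
        exact hnot v hv hs
    have hs0 : 0 < s := by linarith
    have hvpos : 0 < ‖v‖ := norm_pos_iff.2 hv0
    have h1 := hWfr _ hs
    rw [norm_smul, Real.norm_of_nonneg hs0.le, inner_smul_left] at h1
    simp only [conj_trivial] at h1
    have h2 : Real.sinh (s * ‖v‖ / 2) * Real.cosh R * ‖v‖ =
        inner ℝ v N * (Real.cosh (s * ‖v‖ / 2) * Real.sinh R) := by
      have h3 : s * (Real.sinh (s * ‖v‖ / 2) * Real.cosh R * ‖v‖) =
          s * (inner ℝ v N * (Real.cosh (s * ‖v‖ / 2) * Real.sinh R)) := by linarith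
      exact mul_left_cancel₀ hs0.ne' h3
    have h4 : Real.sinh (‖v‖ / 2) * Real.cosh (s * ‖v‖ / 2) <
        Real.sinh (s * ‖v‖ / 2) * Real.cosh (‖v‖ / 2) := by
      apply eqb_sinh_cosh_lt
      have : ‖v‖ < s * ‖v‖ := by nlinarith
      linarith
    have hc := Real.cosh_pos (s * ‖v‖ / 2)
    have hCR := Real.cosh_pos R
    have h5 : Real.cosh (s * ‖v‖ / 2) * (Real.sinh (‖v‖ / 2) * Real.cosh R * ‖v‖) <
        Real.cosh (s * ‖v‖ / 2) * (inner ℝ v N * (Real.cosh (‖v‖ / 2) * Real.sinh R)) := by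
      calc Real.cosh (s * ‖v‖ / 2) * (Real.sinh (‖v‖ / 2) * Real.cosh R * ‖v‖)
          = (Real.cosh R * ‖v‖) * (Real.sinh (‖v‖ / 2) * Real.cosh (s * ‖v‖ / 2)) := by ring
        _ < (Real.cosh R * ‖v‖) * (Real.sinh (s * ‖v‖ / 2) * Real.cosh (‖v‖ / 2)) :=
          mul_lt_mul_of_pos_left h4 (mul_pos hCR hvpos)
        _ = Real.cosh (‖v‖ / 2) * (Real.sinh (s * ‖v‖ / 2) * Real.cosh R * ‖v‖) := by ring
        _ = _ := by rw [h2]; ring
    exact lt_of_mul_lt_mul_left h5 hc.le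
  have hzero : (0 : E n) ∉ W := by
    intro h0
    have h1 : ∀ᶠ t : ℝ in 𝓝 0, t • N ∈ W := by
      have hct : ContinuousAt (fun t : ℝ => t • N) 0 := by fun_prop
      exact hct.preimage_mem_nhds (by simpa using hWo.mem_nhds h0)
    obtain ⟨ε, hε, h2⟩ := Metric.eventually_nhds_iff.1 h1
    have h3 : (-(ε / 2)) • N ∈ W := by
      apply h2
      rw [Real.dist_eq, sub_zero, abs_neg, abs_of_pos (by positivity)]
      linarith
    have hN0 : N ≠ 0 := by
      rintro rfl
      simp at hN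
    have h4 := hsub0 _ h3 (smul_ne_zero (by linarith : -(ε / 2) ≠ 0) hN0)
    have h5 := ((eqb_smul_iff hR hN _).1 h4).1
    linarith
  have hsub : W ⊆ regH N R := fun v hv => hsub0 v hv fun h => hzero (h ▸ hv)
  have hWeq : W = regH N R := by
    refine Subset.antisymm hsub (hconn _ (eqb_preconnected hR hN) ?_ ?_)
    · obtain ⟨v, hv⟩ := hWne
      exact ⟨v, hsub hv, hv⟩
    · intro y hy hf
      have h1 : Real.sinh (‖y‖ / 2) * Real.cosh R * ‖y‖ <
        inner ℝ y N * (Real.cosh (‖y‖ / 2) * Real.sinh R) := hy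
      rw [hWfr y hf] at h1
      exact lt_irrefl _ h1
  refine ⟨?_, ?_⟩
  · have : Ω = e '' regH N R := by rw [← hWeq, hW, e.image_preimage]
    exact this
  · intro v hv
    rw [← hWeq] at hv
    obtain ⟨s, hs1, hs⟩ := hray v hv fun h => hzero (h ▸ hv)
    rw [hWfr'] at hs
    exact ⟨s, hs1, hs⟩

/-- The geometric conclusion. PROOF: `eq_ball_H`, `model_of_det` at the frontier point of the ray
through `v`, `model_segment`. -/
theorem hyp_ball (hn : 2 ≤ n) (hG : Curv G 1) {Ω : Set (E n)} (ho : IsOpen Ω)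
    (hb : Bornology.IsBounded Ω) (hne : Ω.Nonempty) {p N : E n} {R : ℝ} (hR : 0 < R)
    (hN : ‖N‖ = 1)
    (hfr : ∀ q ∈ frontier Ω, q ≠ p →
      Real.sinh (‖G.lg p q‖ / 2) * Real.cosh R * ‖G.lg p q‖ =
        inner ℝ (G.lg p q) N * (Real.cosh (‖G.lg p q‖ / 2) * Real.sinh R) ∧
      |(G.T p (G.lg p q)).det| * ‖G.lg p q‖ ^ (n - 1) = Real.sinh ‖G.lg p q‖ ^ (n - 1)) :
    Ω = G.ex p '' regH N R ∧ ∀ v ∈ regH N R, ∀ z, ‖G.T p v z‖ ^ 2 = mq v z := by
  obtain ⟨h1, h2⟩ := eq_ball_H G hn ho hb hne hR hN (fun q hq hqp => (hfr q hq hqp).1)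
  refine ⟨h1, fun v hv z => ?_⟩
  obtain ⟨s, hs1, hs⟩ := h2 v hv
  have hs0 : 0 < s := by linarith
  have hv0 : v ≠ 0 := by
    rintro rfl
    have h3 : Real.sinh (‖(0 : E n)‖ / 2) * Real.cosh R * ‖(0 : E n)‖ <
      inner ℝ (0 : E n) N * (Real.cosh (‖(0 : E n)‖ / 2) * Real.sinh R) := hv
    simp at h3
  have hsv : s • v ≠ 0 := smul_ne_zero hs0.ne' hv0
  have hqp : G.ex p (s • v) ≠ p := by
    intro h
    have h3 : G.ex p (s • v) = G.ex p 0 := by rw [G.ex_zero]; exact h
    have h4 := congrArg (G.lg p) h3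
    rw [G.lg_ex, G.lg_ex] at h4
    exact hsv h4
  have hdet := (hfr _ hs hqp).2
  rw [G.lg_ex] at hdet
  have hmod := model_of_det G hn hG p hsv hdet
  have h5 := model_segment G hn hG p hsv hmod (inv_pos.2 hs0) (inv_le_one_of_one_le₀ hs1) z
  rwa [smul_smul, inv_mul_cancel₀ hs0.ne', one_smul] at h5

end Vale.Agent.P219.TPH
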