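import Vale.Agent.P219.TPHR.GeoBallH

/-! # Hyperboloid coordinates with respect to the center -/

open MeasureTheory Set Metric Filter Topology
open scoped ENNReal ContDiff

namespace Vale.Agent.P219.TPH

open Vale.Agent.P219.TP

variable {n : ℕ}

/-- The hyperbolic metric in hyperboloid coordinates: the metric induced by `-dy₀² + |dy|²` on the
graph `y₀ = √(1 + |y|²)`. -/
noncomputable def hq (y z : E n) : ℝ := ‖z‖ ^ 2 - inner ℝ y z ^ 2 / (1 + ‖y‖ ^ 2)

/-- The height of a point of the hyperboloid. -/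
noncomputable def rcH (y : E n) : ℝ := √(1 + ‖y‖ ^ 2)

/-- The boost. -/
noncomputable def rcB (N : E n) (c s : ℝ) (y : E n) : E n :=
  y + ((c - 1) * inner ℝ y N + s * rcH y) • N

/-- From hyperboloid coordinates to normal coordinates. -/
noncomputable def rcE (w : E n) : E n := (Real.arsinh ‖w‖ / ‖w‖) • w

/-- From normal coordinates to hyperboloid coordinates. -/
noncomputable def rcL (v : E n) : E n := (Real.sinh ‖v‖ / ‖v‖) • v

theorem rcH_sq (y : E n) : rcH y ^ 2 = 1 + ‖y‖ ^ 2 := by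
  unfold rcH
  exact Real.sq_sqrt (by positivity)

theorem rcH_pos (y : E n) : 0 < rcH y := by
  unfold rcH
  exact Real.sqrt_pos.mpr (by positivity)

theorem rcB_inner {N : E n} (hN : ‖N‖ = 1) (c s : ℝ) (y : E n) :
    inner ℝ (rcB N c s y) N = c * inner ℝ y N + s * rcH y := by
  unfold rcB
  rw [inner_add_left, real_inner_smul_left, real_inner_self_eq_norm_sq, hN]
  ring

theorem rcB_norm_sq {N : E n} (hN : ‖N‖ = 1) (c s : ℝ) (y : E n) :
    ‖rcB N c s y‖ ^ 2 = ‖y‖ ^ 2 - inner ℝ y N ^ 2 + (c * inner ℝ y N + s * rcH y) ^ 2 := by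
  unfold rcB
  rw [norm_add_sq_real, real_inner_smul_right, norm_smul, hN, mul_one, Real.norm_eq_abs, sq_abs]
  ring

theorem abs_inner_lt_rcH {N : E n} (hN : ‖N‖ = 1) (y : E n) : |inner ℝ y N| < rcH y := by
  have h1 : |inner ℝ y N| ≤ ‖y‖ := by
    have := abs_real_inner_le_norm y N
    rwa [hN, mul_one] at this
  have h2 : ‖y‖ < rcH y := by
    have h := rcH_sq y
    have h0 := rcH_pos y
    have h3 := norm_nonneg y
    nlinarith
  linarith

theorem rcB_height {N : E n} (hN : ‖N‖ = 1) {c s : ℝ} (hc : 0 < c) (hs : 0 ≤ s)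
    (hcs : c ^ 2 - s ^ 2 = 1) (y : E n) :
    rcH (rcB N c s y) = c * rcH y + s * inner ℝ y N := by
  have h1 := rcH_sq y
  have h2 : rcH (rcB N c s y) ^ 2 = (c * rcH y + s * inner ℝ y N) ^ 2 := by
    rw [rcH_sq, rcB_norm_sq hN]
    have : ‖y‖ ^ 2 = rcH y ^ 2 - 1 := by linarith
    rw [this]
    linear_combination (inner ℝ y N ^ 2 - rcH y ^ 2) * hcs
  have h3 : 0 < c * rcH y + s * inner ℝ y N := by
    have h4 := abs_inner_lt_rcH hN y
    have h5 := abs_lt.mp h4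
    have hsc : s < c := by nlinarith
    have h6 := rcH_pos y
    nlinarith
  have h4 := rcH_pos (rcB N c s y)
  exact (pow_left_inj₀ h4.le h3.le two_ne_zero).mp h2

/-- The inverse of the boost. -/
theorem rcB_inv {N : E n} (hN : ‖N‖ = 1) {c s : ℝ} (hc : 0 < c) (hs : 0 ≤ s)
    (hcs : c ^ 2 - s ^ 2 = 1) (y : E n) :
    rcB N c s y + ((c - 1) * inner ℝ (rcB N c s y) N - s * rcH (rcB N c s y)) • N = y := by
  rw [rcB_height hN hc hs hcs, rcB_inner hN]
  unfold rcB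
  rw [add_assoc, ← add_smul]
  have : (c - 1) * inner ℝ y N + s * rcH y +
      ((c - 1) * (c * inner ℝ y N + s * rcH y) - s * (c * rcH y + s * inner ℝ y N)) = 0 := by
    linear_combination (inner ℝ y N) * hcs
  rw [this, zero_smul, add_zero]

/-- The other inverse. -/
theorem rcB_neg {N : E n} (w : E n) (c s : ℝ) :
    rcB N c (-s) w = w + ((c - 1) * inner ℝ w N - s * rcH w) • N := by
  unfold rcB
  congr 2
  ring

theorem rcB_height_neg {N : E n} (hN : ‖N‖ = 1) {c s : ℝ} (hc : 0 < c) (hs : 0 ≤ s)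
    (hcs : c ^ 2 - s ^ 2 = 1) (w : E n) :
    rcH (rcB N c (-s) w) = c * rcH w - s * inner ℝ w N := by
  have h1 := rcH_sq w
  have h2 : rcH (rcB N c (-s) w) ^ 2 = (c * rcH w - s * inner ℝ w N) ^ 2 := by
    rw [rcH_sq, rcB_norm_sq hN]
    have : ‖w‖ ^ 2 = rcH w ^ 2 - 1 := by linarith
    rw [this]
    linear_combination (inner ℝ w N ^ 2 - rcH w ^ 2) * hcs
  have h3 : 0 < c * rcH w - s * inner ℝ w N := by
    have h4 := abs_inner_lt_rcH hN w
    have h5 := abs_lt.mp h4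
    have hsc : s < c := by nlinarith
    have h6 := rcH_pos w
    nlinarith
  have h4 := rcH_pos (rcB N c (-s) w)
  exact (pow_left_inj₀ h4.le h3.le two_ne_zero).mp h2

theorem rcB_rcB_neg {N : E n} (hN : ‖N‖ = 1) {c s : ℝ} (hc : 0 < c) (hs : 0 ≤ s)
    (hcs : c ^ 2 - s ^ 2 = 1) (w : E n) : rcB N c s (rcB N c (-s) w) = w := by
  have e1 := rcB_height_neg hN hc hs hcs w
  have e2 := rcB_inner hN c (-s) w
  have e3 : rcB N c s (rcB N c (-s) w) = rcB N c (-s) w +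
      ((c - 1) * inner ℝ (rcB N c (-s) w) N + s * rcH (rcB N c (-s) w)) • N := rfl
  rw [e3, e1, e2, rcB_neg, add_assoc, ← add_smul]
  have : (c - 1) * inner ℝ w N - s * rcH w +
      ((c - 1) * (c * inner ℝ w N + -s * rcH w) + s * (c * rcH w - s * inner ℝ w N)) = 0 := by
    linear_combination (inner ℝ w N) * hcs
  rw [this, zero_smul, add_zero]

theorem rcE_norm (w : E n) (hw : w ≠ 0) : ‖rcE w‖ = Real.arsinh ‖w‖ := by
  have h0 : 0 < ‖w‖ := norm_pos_iff.mpr hw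
  unfold rcE
  rw [norm_smul, Real.norm_eq_abs, abs_div, abs_of_pos h0,
    abs_of_pos (Real.arsinh_pos_iff.mpr h0)]
  field_simp

theorem rcL_rcE (w : E n) (hw : w ≠ 0) : rcL (rcE w) = w := by
  have h0 : 0 < ‖w‖ := norm_pos_iff.mpr hw
  have h1 := Real.arsinh_pos_iff.mpr h0
  have e : rcL (rcE w) = (Real.sinh ‖rcE w‖ / ‖rcE w‖) • rcE w := rfl
  rw [e, rcE_norm w hw, Real.sinh_arsinh]
  unfold rcE
  rw [smul_smul]
  have : ‖w‖ / Real.arsinh ‖w‖ * (Real.arsinh ‖w‖ / ‖w‖) = 1 := by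
    field_simp
  rw [this, one_smul]

theorem rcL_norm (v : E n) (hv : v ≠ 0) : ‖rcL v‖ = Real.sinh ‖v‖ := by
  have h0 : 0 < ‖v‖ := norm_pos_iff.mpr hv
  unfold rcL
  rw [norm_smul, Real.norm_eq_abs, abs_div, abs_of_pos h0,
    abs_of_pos (Real.sinh_pos_iff.mpr h0)]
  field_simp

theorem rcL_ne (v : E n) (hv : v ≠ 0) : rcL v ≠ 0 := by
  have h0 : 0 < ‖v‖ := norm_pos_iff.mpr hv
  rw [← norm_pos_iff, rcL_norm v hv]
  exact Real.sinh_pos_iff.mpr h0

theorem rcE_rcL (v : E n) (hv : v ≠ 0) : rcE (rcL v) = v := by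
  have h0 : 0 < ‖v‖ := norm_pos_iff.mpr hv
  have h1 := Real.sinh_pos_iff.mpr h0
  have e : rcE (rcL v) = (Real.arsinh ‖rcL v‖ / ‖rcL v‖) • rcL v := rfl
  rw [e, rcL_norm v hv, Real.arsinh_sinh]
  unfold rcL
  rw [smul_smul]
  have : ‖v‖ / Real.sinh ‖v‖ * (Real.sinh ‖v‖ / ‖v‖) = 1 := by
    field_simp
  rw [this, one_smul]

theorem rcH_rcL (v : E n) (hv : v ≠ 0) : rcH (rcL v) = Real.cosh ‖v‖ := by
  have h2 : rcH (rcL v) ^ 2 = Real.cosh ‖v‖ ^ 2 := by
    rw [rcH_sq, rcL_norm v hv, Real.cosh_sq]; ring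
  exact (pow_left_inj₀ (rcH_pos _).le (Real.cosh_pos _).le two_ne_zero).mp h2

theorem rcH_lt_iff (y : E n) {R : ℝ} (hR : 0 < R) :
    rcH y < Real.cosh R ↔ ‖y‖ < Real.sinh R := by
  have h1 := rcH_sq y
  have h2 := Real.cosh_sq R
  have h3 := rcH_pos y
  have h4 := Real.cosh_pos R
  have h5 := Real.sinh_pos_iff.mpr hR
  have h6 := norm_nonneg y
  constructor
  · intro h; nlinarith
  · intro h; nlinarith

/-- Membership in the ball in normal coordinates. -/
theorem mem_regH_iff {N : E n} {R : ℝ} {v : E n} (hv : v ≠ 0) :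
    v ∈ regH N R ↔
      Real.cosh R * rcH (rcL v) - Real.sinh R * inner ℝ (rcL v) N < Real.cosh R := by
  have h0 : 0 < ‖v‖ := norm_pos_iff.mpr hv
  rw [rcH_rcL v hv]
  have hin : inner ℝ (rcL v) N = Real.sinh ‖v‖ / ‖v‖ * inner ℝ v N := by
    unfold rcL
    rw [real_inner_smul_left]
  rw [hin]
  have hc : Real.cosh ‖v‖ = 1 + 2 * Real.sinh (‖v‖ / 2) ^ 2 := by
    have h1 := Real.cosh_two_mul (‖v‖ / 2)
    have h2 := Real.cosh_sq (‖v‖ / 2)
    have h3 : 2 * (‖v‖ / 2) = ‖v‖ := by ring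
    rw [h3] at h1
    rw [h1, h2]; ring
  have hs : Real.sinh ‖v‖ = 2 * Real.sinh (‖v‖ / 2) * Real.cosh (‖v‖ / 2) := by
    have h1 := Real.sinh_two_mul (‖v‖ / 2)
    have h3 : 2 * (‖v‖ / 2) = ‖v‖ := by ring
    rwa [h3] at h1
  have hsp : 0 < Real.sinh (‖v‖ / 2) := Real.sinh_pos_iff.mpr (by positivity)
  show Real.sinh (‖v‖ / 2) * Real.cosh R * ‖v‖ <
    inner ℝ v N * (Real.cosh (‖v‖ / 2) * Real.sinh R) ↔ _
  have hk : 0 < 2 * Real.sinh (‖v‖ / 2) / ‖v‖ := by positivity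
  rw [← mul_lt_mul_iff_right₀ hk]
  have e1 : 2 * Real.sinh (‖v‖ / 2) / ‖v‖ * (Real.sinh (‖v‖ / 2) * Real.cosh R * ‖v‖)
      = Real.cosh R * Real.cosh ‖v‖ - Real.cosh R := by
    rw [hc]; field_simp; ring
  have e2 : 2 * Real.sinh (‖v‖ / 2) / ‖v‖ *
      (inner ℝ v N * (Real.cosh (‖v‖ / 2) * Real.sinh R))
      = Real.sinh R * (Real.sinh ‖v‖ / ‖v‖ * inner ℝ v N) := by
    rw [hs]; field_simp
  rw [e1, e2]
  constructor <;> intro h <;> linarith

theorem zero_not_mem_regH {N : E n} {R : ℝ} : (0 : E n) ∉ regH N R := by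
  intro h
  have h1 : Real.sinh (‖(0 : E n)‖ / 2) * Real.cosh R * ‖(0 : E n)‖ <
    inner ℝ (0 : E n) N * (Real.cosh (‖(0 : E n)‖ / 2) * Real.sinh R) := h
  simp at h1

theorem rcB_contDiff (N : E n) (c s : ℝ) : ContDiff ℝ ∞ (rcB N c s) := by
  have h0 : ContDiff ℝ ∞ (fun y : E n => rcH y) := by
    unfold rcH
    refine ContDiff.sqrt ?_ fun y => by positivity
    exact contDiff_const.add (contDiff_norm_sq ℝ)
  have h1 : ContDiff ℝ ∞ (fun y : E n => inner ℝ y N) := contDiff_id.inner ℝ contDiff_const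
  unfold rcB
  exact contDiff_id.add (((contDiff_const.mul h1).add (contDiff_const.mul h0)).smul contDiff_const)

/-- The derivative of the height along a line. -/
theorem rcH_hasDeriv (y z : E n) :
    HasDerivAt (fun τ : ℝ => rcH (y + τ • z)) (inner ℝ y z / rcH y) 0 := by
  have h1 : HasDerivAt (fun τ : ℝ => y + τ • z) z 0 := by
    have := ((hasDerivAt_id (0 : ℝ)).smul_const z).const_add y
    simpa using this
  have h2 := (h1.norm_sq.const_add 1).sqrt (by positivity)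
  simp only [zero_smul, add_zero] at h2
  have e : 2 * inner ℝ y z / (2 * √(1 + ‖y‖ ^ 2)) = inner ℝ y z / rcH y := by
    unfold rcH
    rw [mul_div_mul_left _ _ two_ne_zero]
  rw [e] at h2
  exact h2

/-- The derivative of the boost along a line. -/
theorem rcB_hasDeriv (N : E n) (c s : ℝ) (y z : E n) :
    HasDerivAt (fun τ : ℝ => rcB N c s (y + τ • z))
      (z + ((c - 1) * inner ℝ z N + s * (inner ℝ y z / rcH y)) • N) 0 := by
  have h1 : HasDerivAt (fun τ : ℝ => y + τ • z) z 0 := by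
    have := ((hasDerivAt_id (0 : ℝ)).smul_const z).const_add y
    simpa using this
  have h2 : HasDerivAt (fun τ : ℝ => inner ℝ (y + τ • z) N) (inner ℝ z N) 0 := by
    have := HasDerivAt.inner ℝ h1 (hasDerivAt_const (0 : ℝ) N)
    simpa using this
  have h3 := rcH_hasDeriv y z
  exact h1.add (((h2.const_mul (c - 1)).add (h3.const_mul s)).smul_const N)

/-- The boost is an isometry. -/
theorem hq_rcB {N : E n} (hN : ‖N‖ = 1) {c s : ℝ} (hc : 0 < c) (hs : 0 ≤ s)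
    (hcs : c ^ 2 - s ^ 2 = 1) (y z : E n) :
    hq (rcB N c s y) (z + ((c - 1) * inner ℝ z N + s * (inner ℝ y z / rcH y)) • N) = hq y z := by
  set t := inner ℝ y N with ht
  set τ := inner ℝ z N with hτ
  set z0 := inner ℝ y z / rcH y with hz0
  have hy0 := rcH_pos y
  have hyz : inner ℝ y z = rcH y * z0 := by
    rw [hz0]; field_simp
  have hn : ‖z + ((c - 1) * τ + s * z0) • N‖ ^ 2 = ‖z‖ ^ 2 - τ ^ 2 + (c * τ + s * z0) ^ 2 := by
    rw [norm_add_sq_real, real_inner_smul_right, norm_smul, hN, mul_one, Real.norm_eq_abs,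
      sq_abs, ← hτ]
    ring
  have hin : inner ℝ (rcB N c s y) (z + ((c - 1) * τ + s * z0) • N)
      = (c * rcH y + s * t) * (c * z0 + s * τ) := by
    rw [inner_add_right, real_inner_smul_right, rcB_inner hN]
    unfold rcB
    rw [inner_add_left, real_inner_smul_left, real_inner_comm z N, ← hτ, ← ht, hyz]
    linear_combination (t * τ - rcH y * z0) * hcs
  have hh : 1 + ‖rcB N c s y‖ ^ 2 = (c * rcH y + s * t) ^ 2 := by
    rw [← rcH_sq, rcB_height hN hc hs hcs]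
  have hpos : 0 < c * rcH y + s * t := by
    rw [← rcB_height hN hc hs hcs]; exact rcH_pos _
  unfold hq
  rw [hn, hin, hh, hyz, ← rcH_sq y]
  have e1 : ((c * rcH y + s * t) * (c * z0 + s * τ)) ^ 2 / (c * rcH y + s * t) ^ 2
      = (c * z0 + s * τ) ^ 2 := by
    field_simp
  have e2 : (rcH y * z0) ^ 2 / rcH y ^ 2 = z0 ^ 2 := by
    field_simp
  rw [e1, e2]
  linear_combination (τ ^ 2 - z0 ^ 2) * hcs

/-- The derivative of `rcE` along a curve, and the metric. -/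
theorem rcE_hasDeriv {W : ℝ → E n} {w z : E n} (hW : HasDerivAt W z 0) (hw0 : W 0 = w)
    (hw : w ≠ 0) :
    ∃ ζ, HasDerivAt (fun τ => rcE (W τ)) ζ 0 ∧ mq (rcE w) ζ = hq w z := by
  have hρ : 0 < ‖w‖ := norm_pos_iff.mpr hw
  set ρ := ‖w‖ with hρd
  have h1 : HasDerivAt (fun τ => ‖W τ‖) (inner ℝ w z / ρ) 0 := by
    have h2 := hW.norm_sq.sqrt (by rw [hw0]; positivity)
    rw [hw0] at h2
    have e : (fun τ => √(‖W τ‖ ^ 2)) = fun τ => ‖W τ‖ := by
      funext τ; exact Real.sqrt_sq (norm_nonneg _)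
    rw [e, Real.sqrt_sq (norm_nonneg _), mul_div_mul_left _ _ two_ne_zero] at h2
    exact h2
  have h2 := h1.arsinh
  rw [hw0, ← hρd] at h2
  have h3 := h2.div h1 (by rw [hw0]; exact hρ.ne')
  have h4 := h3.smul hW
  rw [hw0, ← hρd] at h4
  set A := Real.arsinh ρ with hA
  have hApos : 0 < A := Real.arsinh_pos_iff.mpr hρ
  set q0 := √(1 + ρ ^ 2) with hq0
  have hq0pos : 0 < q0 := Real.sqrt_pos.mpr (by positivity)
  have hq0sq : q0 ^ 2 = 1 + ρ ^ 2 := Real.sq_sqrt (by positivity)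
  refine ⟨_, h4, ?_⟩
  set b := (q0⁻¹ • (inner ℝ w z / ρ) * ρ - A * (inner ℝ w z / ρ)) / ρ ^ 2 with hb
  set ip := inner ℝ w z with hip
  have hbval : b = (ip / q0 - A * ip / ρ) / ρ ^ 2 := by
    rw [hb, smul_eq_mul]; field_simp
  have hζn : ∀ X : E n, X = (A / ρ) • z + b • w → mq (rcE w) X = hq w z := by
    intro X hX
    have hXn : ‖X‖ ^ 2 = (A / ρ) ^ 2 * ‖z‖ ^ 2 + 2 * (A / ρ) * b * ip + b ^ 2 * ρ ^ 2 := by
      rw [hX, norm_add_sq_real, norm_smul, norm_smul, real_inner_smul_left,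
        real_inner_smul_right, real_inner_comm, ← hip, mul_pow, mul_pow, Real.norm_eq_abs,
        Real.norm_eq_abs, sq_abs, sq_abs, ← hρd]
      ring
    have hXi : inner ℝ (rcE w) X = (A / ρ) * ((A / ρ) * ip + b * ρ ^ 2) := by
      unfold rcE
      rw [real_inner_smul_left, hX, inner_add_right, real_inner_smul_right,
        real_inner_smul_right, real_inner_self_eq_norm_sq, ← hip, ← hρd, ← hA]
    have hnE : ‖rcE w‖ = A := rcE_norm w hw
    unfold mq hq
    rw [hXn, hXi, hnE, ← hρd, ← hip, hA, Real.sinh_arsinh, ← hA]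
    have hkey : (A / ρ) * ip + b * ρ ^ 2 = ip / q0 := by
      rw [hbval]; field_simp; ring
    rw [hkey]
    have hbb : b = (ip / q0 - A * ip / ρ) / ρ ^ 2 := hbval
    have e1 : (A / ρ * (ip / q0)) ^ 2 / A ^ 2 = ip ^ 2 / (ρ ^ 2 * q0 ^ 2) := by
      field_simp
    have e2 : (A / ρ) ^ 2 * ‖z‖ ^ 2 + 2 * (A / ρ) * b * ip + b ^ 2 * ρ ^ 2
        = (A / ρ) ^ 2 * (‖z‖ ^ 2 - ip ^ 2 / ρ ^ 2) + ip ^ 2 / (ρ ^ 2 * q0 ^ 2) := by
      rw [hbb]; field_simp; ring
    rw [e1, e2, add_sub_cancel_right]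
    have e3 : (ρ / A) ^ 2 * ((A / ρ) ^ 2 * (‖z‖ ^ 2 - ip ^ 2 / ρ ^ 2))
        = ‖z‖ ^ 2 - ip ^ 2 / ρ ^ 2 := by
      field_simp
    rw [e3, hq0sq]
    have h1ρ : (0 : ℝ) < 1 + ρ ^ 2 := by positivity
    field_simp
    ring
  apply hζn
  simp only [Pi.div_apply, hw0, ← hρd, ← hA]

/-- The isometry from the ball about the center (hyperboloid coordinates) to normal coordinates
at a boundary point. PROOF: with `y₀ = √(1 + |y|²)`, `t = ⟨y, N⟩` put (boost)
`y' = y + ((cosh R - 1) t + sinh R y₀) N`, so that `y'₀ := √(1 + |y'|²) = cosh R y₀ + sinh R t`, and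
`Ψ y = (arsinh |y'| / |y'|) y'` (`y' ≠ 0` on the ball since `⟨y', N⟩ = cosh R t + sinh R y₀ > 0` for
`|y| < sinh R`). Isometry: `mq v dv` for `v = r θ` is `dr² + sinh² r |dθ|²`, equal to
`|dy'|² - (dy'₀)²` for `y' = sinh r θ`; the boost preserves `|dy|² - dy₀²`. Image: `|y| < sinh R` iff
`y₀ < cosh R`, and `y₀ = cosh R y'₀ - sinh R ⟨y', N⟩ = cosh R cosh |v| - sinh R sinh |v| ⟨v,N⟩/|v|`;
`cosh |v| - 1 = 2 sinh² (|v|/2)`, `sinh |v| = 2 sinh (|v|/2) cosh (|v|/2)`. -/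
theorem exists_recenter {N : E n} (hN : ‖N‖ = 1) {R : ℝ} (hR : 0 < R) :
    ∃ Ψ : E n → E n, ContDiffOn ℝ ∞ Ψ (ball 0 (Real.sinh R)) ∧
      InjOn Ψ (ball 0 (Real.sinh R)) ∧ Ψ '' ball 0 (Real.sinh R) = regH N R ∧
      ∀ y ∈ ball (0 : E n) (Real.sinh R), ∀ z, mq (Ψ y) (fderiv ℝ Ψ y z) = hq y z := by
  set c := Real.cosh R with hcd
  set s := Real.sinh R with hsd
  have hc : 0 < c := Real.cosh_pos R
  have hs : 0 < s := Real.sinh_pos_iff.mpr hR
  have hcs : c ^ 2 - s ^ 2 = 1 := Real.cosh_sq_sub_sinh_sq R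
  -- the boosted point is not zero
  have hne : ∀ y ∈ ball (0 : E n) s, rcB N c s y ≠ 0 := by
    intro y hy h0
    rw [mem_ball_zero_iff] at hy
    have h1 := rcB_inner hN c s y
    rw [h0, inner_zero_left] at h1
    have h2 : |inner ℝ y N| ≤ ‖y‖ := by
      have := abs_real_inner_le_norm y N
      rwa [hN, mul_one] at this
    have h3 := (abs_le.mp h2).1
    have h4 := rcH_sq y
    have h5 := rcH_pos y
    have h6 := norm_nonneg y
    -- s * rcH y > c * ‖y‖
    have h7 : (c * ‖y‖) ^ 2 < (s * rcH y) ^ 2 := by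
      rw [mul_pow, mul_pow, h4]
      have : c ^ 2 = 1 + s ^ 2 := by linarith
      rw [this]
      nlinarith
    have h8 : c * ‖y‖ < s * rcH y := lt_of_pow_lt_pow_left₀ 2 (by positivity) h7
    nlinarith
  have hsm : ContDiffOn ℝ ∞ (fun y => rcE (rcB N c s y)) (ball 0 s) := by
    have hB : ContDiffOn ℝ ∞ (rcB N c s) (ball 0 s) := (rcB_contDiff N c s).contDiffOn
    have hnB : ContDiffOn ℝ ∞ (fun y => ‖rcB N c s y‖) (ball 0 s) := hB.norm ℝ hne
    unfold rcE
    exact (hnB.arsinh.div hnB fun y hy => (norm_pos_iff.mpr (hne y hy)).ne').smul hB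
  refine ⟨fun y => rcE (rcB N c s y), hsm, ?_, ?_, ?_⟩
  · intro y hy y' hy' h
    have h1 : rcL (rcE (rcB N c s y)) = rcL (rcE (rcB N c s y')) := congrArg rcL h
    rw [rcL_rcE _ (hne y hy), rcL_rcE _ (hne y' hy')] at h1
    have h2 := rcB_inv hN hc hs.le hcs y
    have h3 := rcB_inv hN hc hs.le hcs y'
    rw [← h2, ← h3, h1]
  · ext v
    constructor
    · rintro ⟨y, hy, rfl⟩
      have hw := hne y hy
      have hv : rcE (rcB N c s y) ≠ 0 := by
        rw [← norm_pos_iff, rcE_norm _ hw]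
        exact Real.arsinh_pos_iff.mpr (norm_pos_iff.mpr hw)
      show rcE (rcB N c s y) ∈ regH N R
      rw [mem_regH_iff hv, rcL_rcE _ hw, ← hcd, ← hsd, rcB_height hN hc hs.le hcs, rcB_inner hN]
      have h1 : rcH y < c := (rcH_lt_iff y hR).mpr (mem_ball_zero_iff.mp hy)
      have hc2 : c ^ 2 = 1 + s ^ 2 := by linarith
      nlinarith [hc2]
    · intro hv
      have hv0 : v ≠ 0 := by
        rintro rfl
        exact zero_not_mem_regH hv
      rw [mem_regH_iff hv0, ← hcd, ← hsd] at hv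
      refine ⟨rcB N c (-s) (rcL v), ?_, ?_⟩
      · rw [mem_ball_zero_iff, hsd, ← rcH_lt_iff _ hR, ← hsd, ← hcd,
          rcB_height_neg hN hc hs.le hcs]
        exact hv
      · show rcE (rcB N c s (rcB N c (-s) (rcL v))) = v
        rw [rcB_rcB_neg hN hc hs.le hcs, rcE_rcL v hv0]
  · intro y hy z
    have hW := rcB_hasDeriv N c s y z
    have hW0 : (fun τ : ℝ => rcB N c s (y + τ • z)) 0 = rcB N c s y := by simp
    obtain ⟨ζ, hζ, hm⟩ := rcE_hasDeriv hW hW0 (hne y hy)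
    have hd : DifferentiableAt ℝ (fun y => rcE (rcB N c s y)) y :=
      (hsm.contDiffAt (isOpen_ball.mem_nhds hy)).differentiableAt (by simp)
    have hline : HasDerivAt (fun τ : ℝ => y + τ • z) z 0 := by
      have := ((hasDerivAt_id (0 : ℝ)).smul_const z).const_add y
      simpa using this
    have hf : HasFDerivAt (fun y => rcE (rcB N c s y))
        (fderiv ℝ (fun y => rcE (rcB N c s y)) y) ((fun τ : ℝ => y + τ • z) 0) := by
      simpa using hd.hasFDerivAt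
    have hcomp := hf.comp_hasDerivAt (0 : ℝ) hline
    have heq : fderiv ℝ (fun y => rcE (rcB N c s y)) y z = ζ := hcomp.unique hζ
    show mq (rcE (rcB N c s y)) (fderiv ℝ (fun y => rcE (rcB N c s y)) y z) = hq y z
    rw [heq, hm]
    exact hq_rcB hN hc hs.le hcs y z

end Vale.Agent.P219.TPH
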