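import Vale.Agent.P219.TPHR.PairRigH
import Vale.Agent.P219.TPHR.Recenter
import Vale.Agent.P219.TPHR.EqBallH
import Vale.Agent.P219.TPR.RigFlat
import Vale.Agent.P219.CHH.IsopH

/-! # Equality case for domains, curvature `≤ -1` -/

open MeasureTheory Set Metric Filter Topology
open scoped ENNReal ContDiff

noncomputable section

namespace Vale.Agent.P219.CH

variable {n : ℕ}

/-- `V1 ≤ vp ≤ V1 + vol {0 < h < 1}` for a cut-off function. -/
theorem rh_vp_V1 (G : TP.Geo n) (hn : 2 ≤ n) {h : E n → ℝ} (hh1 : ContDiff ℝ 1 h)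
    (hcs : HasCompactSupport h) (h01 : ∀ x, 0 ≤ h x ∧ h x ≤ 1) :
    TPH.V1 G h ≤ G.vp h ∧
      G.vp h ≤ TPH.V1 G h + G.vol.real {x | 0 < h x ∧ h x < 1} := by
  have hp0 : (0 : ℝ) < (n : ℝ) / (n - 1) := by
    have : (2 : ℝ) ≤ n := by exact_mod_cast hn
    exact div_pos (by linarith) (by linarith)
  have hm1 : MeasurableSet {x | h x = 1} :=
    (isClosed_eq hh1.continuous continuous_const).measurableSet
  have hm2 : MeasurableSet {x | 0 < h x ∧ h x < 1} :=
    ((isOpen_lt continuous_const hh1.continuous).inter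
      (isOpen_lt hh1.continuous continuous_const)).measurableSet
  have hK : G.vol (tsupport h) < ⊤ := G.vol_compact_lt_top hcs.isCompact
  have hf1 : G.vol {x | h x = 1} ≠ ⊤ := by
    refine ((measure_mono fun x hx => ?_).trans_lt hK).ne
    refine subset_tsupport h ?_
    have : h x = 1 := hx
    rw [Function.mem_support, this]
    exact one_ne_zero
  have hf2 : G.vol {x | 0 < h x ∧ h x < 1} ≠ ⊤ := by
    refine ((measure_mono fun x hx => ?_).trans_lt hK).ne
    exact subset_tsupport h (Function.mem_support.2 hx.1.ne')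
  have hi1 : Integrable ({x | h x = 1}.indicator (1 : E n → ℝ)) G.vol :=
    (integrable_indicator_iff hm1).2 (integrableOn_const hf1)
  have hi2 : Integrable ({x | 0 < h x ∧ h x < 1}.indicator (1 : E n → ℝ)) G.vol :=
    (integrable_indicator_iff hm2).2 (integrableOn_const hf2)
  have hup : ∀ x, h x ^ ((n : ℝ) / ((n : ℝ) - 1)) ≤ {x | h x = 1}.indicator (1 : E n → ℝ) x +
      {x | 0 < h x ∧ h x < 1}.indicator (1 : E n → ℝ) x := by
    intro x
    obtain ⟨h0, h1⟩ := h01 x
    rcases h0.eq_or_lt with h0 | h0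
    · simp only [← h0, Real.zero_rpow hp0.ne']
      exact add_nonneg (indicator_nonneg (fun _ _ => zero_le_one) _)
        (indicator_nonneg (fun _ _ => zero_le_one) _)
    · rcases h1.eq_or_lt with h1 | h1
      · have : x ∈ {x | h x = 1} := h1
        simp only [indicator_of_mem this, h1, Real.one_rpow, Pi.one_apply]
        exact le_add_of_nonneg_right (indicator_nonneg (fun _ _ => zero_le_one) _)
      · have : x ∈ {x | 0 < h x ∧ h x < 1} := ⟨h0, h1⟩
        simp only [indicator_of_mem this, Pi.one_apply]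
        refine le_add_of_nonneg_of_le (indicator_nonneg (fun _ _ => zero_le_one) _) ?_
        exact Real.rpow_le_one h0.le h1.le hp0.le
  have hlow : ∀ x, {x | h x = 1}.indicator (1 : E n → ℝ) x ≤ h x ^ ((n : ℝ) / ((n : ℝ) - 1)) := by
    intro x
    by_cases hx : x ∈ {x | h x = 1}
    · have h1 : h x = 1 := hx
      rw [indicator_of_mem hx, h1, Real.one_rpow]
      rfl
    · rw [indicator_of_notMem hx]
      exact Real.rpow_nonneg (h01 x).1 _
  have hc : Continuous fun x => h x ^ ((n : ℝ) / ((n : ℝ) - 1)) :=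
    hh1.continuous.rpow_const fun x => Or.inr hp0.le
  have hi : Integrable (fun x => h x ^ ((n : ℝ) / ((n : ℝ) - 1))) G.vol := by
    refine (hi1.add hi2).mono' hc.aestronglyMeasurable (Eventually.of_forall fun x => ?_)
    rw [Real.norm_eq_abs, abs_of_nonneg (Real.rpow_nonneg (h01 x).1 _)]
    exact hup x
  unfold TPH.V1 TP.Geo.vp
  constructor
  · rw [← integral_indicator_one hm1]
    exact integral_mono hi1 hi hlow
  · rw [← integral_indicator_one hm1, ← integral_indicator_one hm2, ← integral_add hi1 hi2]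
    exact integral_mono hi (hi1.add hi2) hup

/-- PROOF: `feps_vol`: `vp - vol{0<h<1} ≤ V1 ≤ vp` (the first inequality is proved inside
`isopH_of_cert` in CHH/IsopH.lean, the second one in the same way). -/
theorem feps_V1 (M : RiemMetric n) (e : Fin n → E n → E n) (he : TriangularFrame M e)
    (hs : SecLE M 0) (F : GFlow M.g) (hn : 2 ≤ n) (D : SmoothDomain n) {V : ℝ} (hV0 : 0 ≤ V)
    (hV : riemVol M D.carrier = ENNReal.ofReal V) :
    Tendsto (fun k : ℕ => TPH.V1 (toGeo M e he hs F) (Feps D (1 / (k + 1)))) atTop (𝓝 V) := by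
  obtain ⟨hvp, hlay⟩ := feps_vol M e he hs F hn D hV0 hV
  set G := toGeo M e he hs F with hG
  have hε : ∀ k : ℕ, 0 < 1 / ((k : ℝ) + 1) := fun k => by positivity
  have hb : ∀ k : ℕ, TPH.V1 G (Feps D (1 / (k + 1))) ≤ G.vp (Feps D (1 / (k + 1))) ∧
      G.vp (Feps D (1 / (k + 1))) ≤ TPH.V1 G (Feps D (1 / (k + 1))) +
        G.vol.real {x | 0 < Feps D (1 / (k + 1)) x ∧ Feps D (1 / (k + 1)) x < 1} := fun k =>
    rh_vp_V1 G hn ((Feps_smooth D _).of_le (by simp)) (Feps_compact D (hε k))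
      fun x => ⟨Feps_nonneg D _ x, Feps_le_one D _ x⟩
  have hlay0 : Tendsto (fun k : ℕ => G.vol.real
      {x | 0 < Feps D (1 / (k + 1)) x ∧ Feps D (1 / (k + 1)) x < 1}) atTop (𝓝 0) := by
    rw [Metric.tendsto_atTop]
    intro δ hδ
    obtain ⟨N, hN⟩ := eventually_atTop.1 (hlay δ hδ)
    refine ⟨N, fun k hk => ?_⟩
    rw [Real.dist_eq, sub_zero, abs_of_nonneg measureReal_nonneg]
    exact hN k hk
  refine tendsto_of_tendsto_of_tendsto_of_le_of_le (f := fun k : ℕ =>
    TPH.V1 G (Feps D (1 / (k + 1)))) (g := fun k : ℕ => G.vp (Feps D (1 / (k + 1))) - G.vol.real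
      {x | 0 < Feps D (1 / (k + 1)) x ∧ Feps D (1 / (k + 1)) x < 1})
    (h := fun k : ℕ => G.vp (Feps D (1 / (k + 1)))) ?_ hvp ?_ ?_
  · simpa using hvp.sub hlay0
  · intro k
    have := (hb k).2
    simp only
    linarith
  · intro k
    exact (hb k).1

/-- Equality case, `K = -1`. PROOF: as `equality_flat'` in TPR/RigFlat.lean: `TPH.rig_pair_H` for all
pairs of frontier points (`Curv G 1` from `TPH.curv_of_geoH (toGeoH ..)`, `isopH_area`, `isopH_vol`,
`feps_per`, `feps_V1`, `feps_vol`, `feps_lower`, `D_feps`, `nrm_norm`), then `TPH.hyp_ball`,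
`TPH.exists_recenter`, `φ = G.ex p ∘ Ψ`: `M.g (φ y) (Dφ u) (Dφ u) = ‖T p (Ψ y) (DΨ u)‖² = mq (Ψ y) (DΨ u) =
hq y u`, then polarization (`M.g x` is bilinear and symmetric). -/
theorem equality_hyp (hn : 2 ≤ n) (hC : ∀ R : ℝ, 0 < R → Nonempty (TPH.CertH n 1 R))
    (M : RiemMetric n) (hc : GeoComplete M.g) (hs : SecLE M (-1)) (D : SmoothDomain n) {r : ℝ}
    (hr : 0 < r) (C : TPH.CertHR n 1 r)
    (hV : riemVol M D.carrier = ENNReal.ofReal (modelVol n (-1) r))
    (hA : riemArea M D ≤ ENNReal.ofReal (modelArea n (-1) r)) :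
    ∃ φ : E n → E n, ContDiffOn ℝ ∞ φ (ball 0 (Real.sinh r)) ∧
      InjOn φ (ball 0 (Real.sinh r)) ∧ φ '' ball 0 (Real.sinh r) = D.carrier ∧
      ∀ y ∈ ball (0 : E n) (Real.sinh r), ∀ u v,
        M.g (φ y) (fderiv ℝ φ y u) (fderiv ℝ φ y v) =
          inner ℝ u v - inner ℝ y u * inner ℝ y v / (1 + ‖y‖ ^ 2) := by
  obtain ⟨e, he⟩ := exists_triangularFrame M
  obtain ⟨F⟩ := exists_gflow (isMetricOn M) hc
  have hn1 : 1 ≤ n := by omega
  have hs0 : SecLE M 0 := secLE_zero hs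
  have hVpos : 0 < modelVol n (-1) r := by
    have h1 : modelVol n (-1) 0 < modelVol n (-1) r :=
      modelVol_strictMonoOn n hn1 (-1) (le_refl (0 : ℝ)) hr.le hr
    have h2 : modelVol n (-1) 0 = 0 := by
      unfold modelVol
      simp
    rwa [h2] at h1
  have hA0 : 0 ≤ modelArea n (-1) r := by
    rw [isopH_area hn1]
    unfold TPH.AR
    rw [TPH.bridge_sn]
    exact mul_nonneg (TP.sig_pos hn1).le (pow_nonneg (Real.sinh_nonneg_iff.2 hr.le) _)
  have : Nonempty (Fin n) := ⟨⟨0, by omega⟩⟩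
  have hopen : IsOpen D.carrier := isOpen_lt D.smooth.continuous continuous_const
  have hne : D.carrier.Nonempty := by
    rw [nonempty_iff_ne_empty]
    intro h0
    rw [h0] at hV
    unfold riemVol at hV
    rw [Measure.restrict_empty, lintegral_zero_measure] at hV
    have := ENNReal.ofReal_pos.2 hVpos
    rw [← hV] at this
    exact lt_irrefl _ this
  have hcomp : IsCompact (closure D.carrier) := D.bdd.isCompact_closure
  have hper := feps_per M e he hs0 F hn D hA0 hA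
  obtain ⟨hvp, hlay⟩ := feps_vol M e he hs0 F hn D hVpos.le hV
  have hv1 := feps_V1 M e he hs0 F hn D hVpos.le hV
  have hcurv : TPH.Curv (toGeo M e he hs0 F) 1 := TPH.curv_of_geoH (toGeoH M e he hs F hn)
  set G := toGeo M e he hs0 F with hG
  have hlg : Continuous fun x => ‖G.lg 0 x‖ :=
    (G.lg_smooth.continuous.comp (continuous_const.prodMk continuous_id)).norm
  obtain ⟨B, hB⟩ := (hcomp.image hlg).isBounded.subset_closedBall 0
  have hB' : ∀ x ∈ D.carrier, ‖G.lg 0 x‖ ≤ max B 1 := by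
    intro x hx
    have h1 := hB ⟨x, subset_closure hx, rfl⟩
    rw [mem_closedBall, dist_zero_right, Real.norm_eq_abs, abs_of_nonneg (norm_nonneg _)] at h1
    exact h1.trans (le_max_left _ _)
  have hρ₀ : 0 < max B 1 := lt_of_lt_of_le one_pos (le_max_right _ _)
  have heps : ∀ k : ℕ, (0 : ℝ) < 1 / ((k : ℝ) + 1) := fun k => by positivity
  have hcls : ∀ k : ℕ, G.Cls 0 (max B 1) (Feps D (1 / ((k : ℝ) + 1))) := by
    intro k
    refine ⟨(Feps_smooth D _).of_le (by simp), Feps_nonneg D _, Feps_le_one D _, ?_⟩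
    intro x hx
    apply hB'
    by_contra hx'
    exact hx (Feps_eq_zero D (heps k) hx')
  rw [isopH_area hn1] at hper
  rw [isopH_vol hn1] at hv1
  have hρ : ∀ q ∈ frontier D.carrier, D.ρ q = 0 := by
    intro q hq
    rw [frontier_carrier] at hq
    exact hq.1
  obtain ⟨p, hp⟩ : (frontier D.carrier).Nonempty := by
    rw [nonempty_frontier_iff]
    refine ⟨hne, ?_⟩
    intro hu
    have h1 := D.bdd
    have h2 : {x | D.ρ x < 0} = univ := hu
    rw [h2] at h1
    exact NormedSpace.unbounded_univ ℝ (E n) h1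
  have hN : ∀ q ∈ frontier D.carrier, ContinuousAt (nrm G D.ρ) q ∧
      ∀ᶠ y in 𝓝 q, ‖nrm G D.ρ y‖ = 1 := fun q hq => nrm_norm G D (hρ q hq)
  have hfr : ∀ q ∈ frontier D.carrier, q ≠ p →
      Real.sinh (‖G.lg p q‖ / 2) * Real.cosh r * ‖G.lg p q‖ =
        inner ℝ (G.lg p q) (nrm G D.ρ p) * (Real.cosh (‖G.lg p q‖ / 2) * Real.sinh r) ∧
      |(G.T p (G.lg p q)).det| * ‖G.lg p q‖ ^ (n - 1) = Real.sinh ‖G.lg p q‖ ^ (n - 1) := by
    intro q hq hqp
    have hmem : ∀ x ∈ ({p, q} : Set (E n)), x ∈ frontier D.carrier := by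
      rintro x (rfl | rfl)
      · exact hp
      · exact hq
    have key := TPH.rig_pair_H G hn one_pos hcurv hC hr C hρ₀
      (h := fun k : ℕ => Feps D (1 / ((k : ℝ) + 1))) hcls
      hper (fun δ hδ => hlay δ hδ) hv1 (N := nrm G D.ρ) hqp.symm (hN p hp).1 (hN q hq).1
      (fun x hx => ((hN x (hmem x hx)).2).mono fun y hy => ⟨hy, fun k => D_feps G D (heps k) y⟩)
      (fun x hx U hU => feps_lower G hn1 D (hρ x (hmem x hx)) hU)
    have k1 := key.1
    have k3 := key.2.2
    simp only [TPH.bridge_sn, TPH.bridge_cs] at k1 k3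
    exact ⟨k1, k3⟩
  have hNp : ‖nrm G D.ρ p‖ = 1 := (hN p hp).2.self_of_nhds
  obtain ⟨hball, hT⟩ := TPH.hyp_ball G hn hcurv hopen D.bdd hne hr hNp hfr
  obtain ⟨Ψ, hΨs, hΨi, hΨim, hΨq⟩ := TPH.exists_recenter hNp hr
  have hexs : ContDiff ℝ ∞ (G.ex p) :=
    G.ex_smooth.comp (contDiff_const.prodMk contDiff_id)
  have hinj : Function.Injective (G.ex p) := by
    intro x y hxy
    have h1 := congrArg (G.lg p) hxy
    simpa only [G.lg_ex] using h1
  refine ⟨fun y => G.ex p (Ψ y), hexs.comp_contDiffOn hΨs, ?_, ?_, ?_⟩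
  · intro x hx y hy hxy
    exact hΨi hx hy (hinj hxy)
  · have h1 : (fun y => G.ex p (Ψ y)) '' ball 0 (Real.sinh r) =
        G.ex p '' (Ψ '' ball 0 (Real.sinh r)) := by rw [image_image]
    rw [h1, hΨim, ← hball]
  · intro y hy u v
    have hΨd : DifferentiableAt ℝ Ψ y :=
      (hΨs.contDiffAt (isOpen_ball.mem_nhds hy)).differentiableAt (by simp)
    have hexd : DifferentiableAt ℝ (G.ex p) (Ψ y) := hexs.differentiable (by simp) _
    have hmem : Ψ y ∈ TPH.regH (nrm G D.ρ p) r := by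
      rw [← hΨim]
      exact ⟨y, hy, rfl⟩
    set L : E n →L[ℝ] E n := (G.T p (Ψ y)).comp (fderiv ℝ Ψ y) with hL
    have hfd : ∀ u, fderiv ℝ (fun y => G.ex p (Ψ y)) y u = frA e (G.ex p (Ψ y)) (L u) := by
      intro u
      have h1 : fderiv ℝ (fun y => G.ex p (Ψ y)) y =
          (fderiv ℝ (G.ex p) (Ψ y)).comp (fderiv ℝ Ψ y) := fderiv_comp y hexd hΨd
      rw [h1, ContinuousLinearMap.comp_apply]
      exact (G.T_spec p (Ψ y) (fderiv ℝ Ψ y u)).symm
    have hn2 : ∀ u, ‖L u‖ ^ 2 = ‖u‖ ^ 2 - inner ℝ y u ^ 2 / (1 + ‖y‖ ^ 2) := by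
      intro u
      have h1 := hT (Ψ y) hmem (fderiv ℝ Ψ y u)
      rw [hL, ContinuousLinearMap.comp_apply, h1, hΨq y hy u]
      rfl
    rw [hfd, hfd]
    have h1 : M.g (G.ex p (Ψ y)) (frA e (G.ex p (Ψ y)) (L u)) (frA e (G.ex p (Ψ y)) (L v)) =
        inner ℝ (L u) (L v) := g_frA he _ _ _
    refine h1.trans ?_
    have h2 := hn2 (u + v)
    rw [map_add, norm_add_sq_real, norm_add_sq_real, hn2 u, hn2 v, inner_add_right] at h2
    have h3 : (1 + ‖y‖ ^ 2) ≠ 0 := by positivity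
    field_simp at h2 ⊢
    linarith

end Vale.Agent.P219.CH
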