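import Vale.Agent.P219.CoIsoK
import Vale.Agent.P219.CoIso
import Vale.Agent.P219.TPHR.RigHyp
import Vale.Agent.P219.TPR.CoRig

/-! # Equality case, coordinate definitions, `Sec ≤ κ < 0` -/

open MeasureTheory Set Metric Filter Topology
open scoped ENNReal ContDiff

namespace Vale.Agent.P219.Co

/-- PROOF: unfold; `sn √(-0) r = r`. -/
theorem isometricToBallK_zero {n : ℕ} {M : RiemMetric n} {D : SmoothDomain n} {r : ℝ}
    (h : IsometricToBall M D r) : IsometricToBallK M 0 D r := by
  obtain ⟨φ, h1, h2, h3, h4⟩ := h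
  have hsn : sn √(-0) r = r := by
    unfold sn
    rw [neg_zero, Real.sqrt_zero, if_pos rfl]
  refine ⟨φ, fun k => (h1 k).contDiffOn, ?_, ?_, ?_⟩
  · rw [hsn]; exact h2
  · rw [hsn]; exact h3
  · intro y hy i j
    rw [hsn] at hy
    rw [h4 y hy i j]
    simp

theorem rigH_pd_comp_smul {n : ℕ} (b : ℝ) (f : E n → ℝ) (i : Fin n) (y : E n) :
    pd i (fun z => f (b • z)) y = b * pd i f (b • y) := by
  unfold pd lineDeriv
  have e : (fun t : ℝ => f (b • (y + t • EuclideanSpace.single i 1))) =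
      fun t : ℝ => (fun s : ℝ => f (b • y + s • EuclideanSpace.single i 1)) (b * t) := by
    funext t
    simp only [smul_add, smul_smul]
  have h := deriv_comp_mul_left b
    (fun s : ℝ => f (b • y + s • EuclideanSpace.single i 1)) 0
  rw [mul_zero, smul_eq_mul] at h
  exact (congrArg (fun g => deriv g 0) e).trans h

/-- Scaling: `φ y = φ' (b y)`, `b = √(-κ)`. PROOF: `scale M (-κ)` has `g' = -κ g`,
`sn √(-κ) r = sinh (b r)/b` (`scale_sn`), `scale_sn_one`. -/
theorem isometricToBallK_of_scale {n : ℕ} {M : RiemMetric n} {κ : ℝ} (hκ : κ < 0)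
    {D : SmoothDomain n} {r : ℝ}
    (h : IsometricToBallK (scale M (-κ) (neg_pos.2 hκ)) (-1) D (√(-κ) * r)) :
    IsometricToBallK M κ D r := by
  obtain ⟨b, hb0, hb, hb2⟩ : ∃ b : ℝ, √(-κ) = b ∧ 0 < b ∧ -κ = b ^ 2 :=
    ⟨√(-κ), rfl, Real.sqrt_pos.2 (neg_pos.2 hκ), (Real.sq_sqrt (neg_pos.2 hκ).le).symm⟩
  obtain ⟨φ, h1, h2, h3, h4⟩ := h
  rw [scale_sn_one, hb0] at h1 h2 h3 h4
  have hS : ∀ y : E n, ∑ i, y i ^ 2 < sn √(-κ) r ^ 2 ↔
      ∑ i, (b • y) i ^ 2 < Real.sinh (b * r) ^ 2 := by
    intro y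
    rw [scale_sn hb hb2, div_pow, lt_div_iff₀ (pow_pos hb 2), Finset.sum_mul]
    have e : ∀ i, (b • y) i ^ 2 = y i ^ 2 * b ^ 2 := by
      intro i
      rw [PiLp.smul_apply, smul_eq_mul]
      ring
    simp only [e]
  have hmaps : MapsTo (fun y : E n => b • y) {y | ∑ i, y i ^ 2 < sn √(-κ) r ^ 2}
      {y | ∑ i, y i ^ 2 < Real.sinh (b * r) ^ 2} := fun y hy => (hS y).1 hy
  refine ⟨fun y => φ (b • y), fun k => ?_, ?_, ?_, ?_⟩
  · exact (h1 k).comp (contDiff_const_smul b).contDiffOn hmaps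
  · intro x hx y hy hxy
    have h5 := h2 (hmaps hx) (hmaps hy) hxy
    exact smul_right_injective _ hb.ne' h5
  · rw [← h3]
    ext z
    constructor
    · rintro ⟨y, hy, rfl⟩
      exact ⟨b • y, hmaps hy, rfl⟩
    · rintro ⟨y, hy, rfl⟩
      refine ⟨b⁻¹ • y, ?_, ?_⟩
      · have hy' : ∑ i, y i ^ 2 < Real.sinh (b * r) ^ 2 := hy
        change ∑ i, (b⁻¹ • y) i ^ 2 < sn √(-κ) r ^ 2
        rw [hS, smul_inv_smul₀ hb.ne']
        exact hy'
      · simp only
        rw [smul_inv_smul₀ hb.ne']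
  · intro y hy i j
    have h5 := h4 (b • y) (hmaps hy) i j
    have h6 : ∑ k, ∑ l, M.g (φ (b • y)) k l * pd i (fun z => φ (b • z) k) y *
        pd j (fun z => φ (b • z) l) y =
        ∑ k, ∑ l, (scale M (-κ) (neg_pos.2 hκ)).g (φ (b • y)) k l *
          pd i (fun z => φ z k) (b • y) * pd j (fun z => φ z l) (b • y) := by
      refine Finset.sum_congr rfl fun k _ => Finset.sum_congr rfl fun l _ => ?_
      rw [rigH_pd_comp_smul b (fun z => φ z k), rigH_pd_comp_smul b (fun z => φ z l),
        scale_g_apply, hb2]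
      ring
    rw [h6, h5]
    congr 1
    have e : ∑ m, (b • y) m ^ 2 = b ^ 2 * ∑ m, y m ^ 2 := by
      rw [Finset.mul_sum]
      refine Finset.sum_congr rfl fun i _ => ?_
      rw [PiLp.smul_apply, smul_eq_mul]
      ring
    have e2 : κ = -b ^ 2 := by linarith
    rw [e, e2, PiLp.smul_apply, PiLp.smul_apply, smul_eq_mul, smul_eq_mul]
    congr 1 <;> ring

/-- Equality case, `K = -1`. PROOF: as `equality_of_cert` in TPR/CoRig.lean, with
`CH.equality_hyp`. -/
theorem equality_hyp_one {n : ℕ} (hn : 2 ≤ n) (hC : ∀ R : ℝ, 0 < R → Nonempty (TPH.CertH n 1 R))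
    (hCR : ∀ R : ℝ, 0 < R → Nonempty (TPH.CertHR n 1 R)) (M : RiemMetric n)
    (hc : GeodesicallyComplete M) (hs : SecLE M (-1)) (D : SmoothDomain n) (r : ℝ) (hr : 0 ≤ r)
    (hV : riemVol M D.carrier = ENNReal.ofReal (modelVol n (-1) r))
    (hA : riemArea M D = ENNReal.ofReal (modelArea n (-1) r)) : IsometricToBallK M (-1) D r := by
  obtain ⟨e, he⟩ := CH.exists_triangularFrame (old M)
  rcases hr.eq_or_lt with rfl | hr0
  · -- radius zero
    have hempty : {x : E n | ∑ i, x i ^ 2 < sn √(-(-1)) 0 ^ 2} = ∅ := by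
      rw [scale_sn_one, Real.sinh_zero]
      ext x
      simp only [mem_ofPred_eq, mem_empty_iff_false, iff_false, not_lt]
      have : 0 ≤ ∑ i, x i ^ 2 := Finset.sum_nonneg fun i _ => sq_nonneg _
      simpa using this
    have hcar : D.carrier = ∅ := by
      rw [← modelVol_old, modelVol_zero, ENNReal.ofReal_zero, ← riemVol_old] at hV
      unfold Vale.Agent.P219.riemVol at hV
      have hopen : IsOpen D.carrier := isOpen_lt D.smooth.continuous continuous_const
      rw [lintegral_eq_zero_iff] at hV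
      · by_contra hne
        have hpos : 0 < volume D.carrier := hopen.measure_pos _ (nonempty_iff_ne_empty.2 hne)
        have h1 : ∀ᵐ x ∂(volume.restrict D.carrier), False := by
          filter_upwards [hV] with x hx
          have h2 := volDensity_gt (old M) e he x
          simp only [Pi.zero_apply, ENNReal.ofReal_eq_zero] at hx
          linarith
        rw [Filter.eventually_false_iff_eq_bot, ae_eq_bot, Measure.restrict_eq_zero] at h1
        exact hpos.ne' h1
      · exact (volDensity_smooth (old M) e he).continuous.measurable.ennreal_ofReal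
    refine ⟨id, fun k => ?_, ?_, ?_, ?_⟩
    · exact (EuclideanSpace.proj k : E n →L[ℝ] ℝ).contDiff.contDiffOn
    · rw [hempty]; exact Set.injOn_empty _
    · rw [hempty, image_empty, hcar]
    · intro x hx
      have : x ∈ {x : E n | ∑ i, x i ^ 2 < sn √(-(-1)) 0 ^ 2} := hx
      rw [hempty] at this
      exact this.elim
  · have hV' : Vale.Agent.P219.riemVol (old M) (oldDomain D).carrier =
        ENNReal.ofReal (Vale.Agent.P219.modelVol n (-1) r) := by
      rw [riemVol_old, modelVol_old]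
      exact hV
    have hA' : Vale.Agent.P219.riemArea (old M) (oldDomain D) ≤
        ENNReal.ofReal (Vale.Agent.P219.modelArea n (-1) r) := by
      rw [riemArea_old (frame_of_old he), modelArea_old]
      exact hA.le
    obtain ⟨C⟩ := hCR r hr0
    obtain ⟨φ, h1, h2, h3, h4⟩ := CH.equality_hyp hn hC (old M) (geoComplete_old hc)
      (secLE_old_of_frame ⟨e, he⟩ hs) (oldDomain D) hr0 C hV' hA'
    have hsr : 0 < Real.sinh r := Real.sinh_pos_iff.2 hr0
    have hball : {y : E n | ∑ i, y i ^ 2 < sn √(-(-1)) r ^ 2} = ball 0 (Real.sinh r) := by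
      rw [scale_sn_one, ball_eq_co hsr]
    have hφk : ∀ k, ContDiffOn ℝ ∞ (fun x => φ x k) (ball 0 (Real.sinh r)) := fun k =>
      (EuclideanSpace.proj k : E n →L[ℝ] ℝ).contDiff.comp_contDiffOn h1
    refine ⟨φ, fun k => ?_, ?_, ?_, ?_⟩
    · rw [hball]; exact hφk k
    · rw [hball]; exact h2
    · rw [hball]; exact h3
    · intro x hx i j
      have hx' : x ∈ ball (0 : E n) (Real.sinh r) := by rw [← hball]; exact hx
      have hnhds : ball (0 : E n) (Real.sinh r) ∈ 𝓝 x := isOpen_ball.mem_nhds hx'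
      have h5 := h4 x hx' (basisVec i) (basisVec j)
      rw [old_apply] at h5
      have hd : DifferentiableAt ℝ φ x := (h1.contDiffAt hnhds).differentiableAt (by simp)
      have hpd : ∀ (i k : Fin n), pd i (fun y => φ y k) x =
          (fderiv ℝ φ x (basisVec i)) k := by
        intro i k
        rw [pd_eq (((hφk k).contDiffAt hnhds).differentiableAt (by simp))]
        have h6 : HasFDerivAt (fun y => φ y k)
            ((EuclideanSpace.proj k : E n →L[ℝ] ℝ).comp (fderiv ℝ φ x)) x :=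
          (EuclideanSpace.proj k : E n →L[ℝ] ℝ).hasFDerivAt.comp x hd.hasFDerivAt
        rw [h6.fderiv]
        rfl
      have h7 : ∑ k, ∑ l, M.g (φ x) k l * pd i (fun y => φ y k) x * pd j (fun y => φ y l) x =
          dotProduct (fderiv ℝ φ x (basisVec i)).ofLp
            (Matrix.mulVec (M.g (φ x)) (fderiv ℝ φ x (basisVec j)).ofLp) := by
        simp only [hpd, dotProduct, Matrix.mulVec, Finset.mul_sum]
        refine Finset.sum_congr rfl fun k _ => Finset.sum_congr rfl fun l _ => ?_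
        ring
      have hn2 : ‖x‖ ^ 2 = ∑ m, x m ^ 2 := by
        rw [EuclideanSpace.norm_sq_eq]
        exact Finset.sum_congr rfl fun m _ => by rw [Real.norm_eq_abs, sq_abs]
      have hij : inner ℝ (basisVec i) (basisVec j) = (if i = j then 1 else 0 : ℝ) := by
        rcases eq_or_ne i j with rfl | hij
        · simp [basisVec, EuclideanSpace.inner_single_right]
        · simp [basisVec, EuclideanSpace.inner_single_right, hij, hij.symm]
      have hx1 : ∀ k, inner ℝ x (basisVec k) = x k := by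
        intro k
        simp [basisVec, EuclideanSpace.inner_single_right]
      rw [h7, h5, hn2, hij, hx1, hx1]
      ring

/-- Equality case for `Sec ≤ κ < 0`. PROOF: `equality_hyp_one` for `scale M (-κ)`, radius `√(-κ) r`
(`scale_riemVol`, `scale_riemArea`, `scale_modelVol`, `scale_modelArea`, `scale_complete`,
`scale_sec`), `isometricToBallK_of_scale`. -/
theorem equality_hyp {n : ℕ} (hn : 2 ≤ n) (hC : ∀ R : ℝ, 0 < R → Nonempty (TPH.CertH n 1 R))
    (hCR : ∀ R : ℝ, 0 < R → Nonempty (TPH.CertHR n 1 R)) (M : RiemMetric n)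
    (hc : GeodesicallyComplete M) {κ : ℝ} (hκ : κ < 0) (hs : SecLE M κ) (D : SmoothDomain n)
    (r : ℝ) (hr : 0 ≤ r)
    (hV : riemVol M D.carrier = ENNReal.ofReal (modelVol n κ r))
    (hA : riemArea M D = ENNReal.ofReal (modelArea n κ r)) : IsometricToBallK M κ D r := by
  obtain ⟨b, hb0, hb, hb2⟩ : ∃ b : ℝ, √(-κ) = b ∧ 0 < b ∧ -κ = b ^ 2 :=
    ⟨√(-κ), rfl, Real.sqrt_pos.2 (neg_pos.2 hκ), (Real.sq_sqrt (neg_pos.2 hκ).le).symm⟩
  apply isometricToBallK_of_scale hκ
  apply equality_hyp_one hn hC hCR _ (scale_complete _ hc) (scale_sec hκ hs) D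
  · positivity
  · rw [hb0, scale_riemVol hb _ hb2, scale_modelVol (by omega) hb hb2, hV,
      ENNReal.ofReal_mul (pow_nonneg hb.le n)]
  · rw [hb0, scale_riemArea (by omega) hb _ hb2, scale_modelArea hb hb2, hA,
      ENNReal.ofReal_mul (pow_nonneg hb.le (n - 1))]

end Vale.Agent.P219.Co
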