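import Vale.Agent.P219.TPH.TwoPointH

/-! # The two-point inequality with a gain on a set of pairs -/

open MeasureTheory Set Metric Filter Topology
open scoped ENNReal ContDiff

namespace Vale.Agent.P219.TPH

open Vale.Agent.P219.TP

variable {n : ℕ} (G : Geo n) {k : ℝ}

/-- The conditions of the line theorem hold for the pair `(p, q)` with angles `a, b` after
subtraction of `c` from the kernel. -/
structure Gap (G : Geo n) (k : ℝ) (Φ : ℝ × ℝ → ℝ) (lam H s : ℝ) (f : ℝ → ℝ) (c : ℝ) (p q : E n)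
    (a b : ℝ) : Prop where
  g1 : c + H / 2 * (ph Φ ‖G.lg p q‖ b * max a 0) ≤ NH k (n - 1) Φ lam ‖G.lg p q‖ a b
  g2 : c + H / 2 * (ph Φ ‖G.lg p q‖ a * max b 0) ≤ NH k (n - 1) Φ lam ‖G.lg p q‖ a b
  g6 : 0 ≤ a → 0 ≤ b → a * b * (s * ‖G.lg p q‖ - (f a + f b) / 2) ≤
    (kexs G k Φ lam H p q a b - c) * (|(G.T p (G.lg p q)).det| * ‖G.lg p q‖ ^ (n - 1))


/-- The kernel with the gain. -/
noncomputable def kexc (G : Geo n) (k : ℝ) (Φ : ℝ × ℝ → ℝ) (lam H c : ℝ) (S : Set (E n × E n))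
    (p q : E n) (a b : ℝ) : ℝ :=
  kexs G k Φ lam H p q a b - S.indicator (fun _ => c) (p, q)

/-- The gain along the geodesic. -/
noncomputable def gpX (G : Geo n) (c : ℝ) (S : Set (E n × E n)) (h : E n → ℝ) (x u : E n)
    (σ τ : ℝ) : ℝ :=
  S.indicator (fun _ => c) (G.ex x (σ • u), G.ex x (τ • u)) * jac G x u σ τ *
    (‖G.D h (G.ex x (σ • u))‖ * ‖G.D h (G.ex x (τ • u))‖)

/-- The positive part with the gain. -/
noncomputable def gpP (G : Geo n) (k : ℝ) (Φ : ℝ × ℝ → ℝ) (lam H c : ℝ) (S : Set (E n × E n))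
    (h : E n → ℝ) (x u : E n) (σ τ : ℝ) : ℝ :=
  ryP G k Φ lam H h x u σ τ - gpX G c S h x u σ τ

variable {G}

theorem gp_gkS (Φ : ℝ × ℝ → ℝ) (lam H c : ℝ) (S : Set (E n × E n)) (h : E n → ℝ) (x u : E n)
    (σ τ : ℝ) : gkS G (kexc G k Φ lam H c S) h x u σ τ =
      gkS G (kexs G k Φ lam H) h x u σ τ - gpX G c S h x u σ τ := by
  unfold gkS gpX kexc
  ring

theorem gp_ind_nonneg {c : ℝ} (hc : 0 ≤ c) (S : Set (E n × E n)) (z : E n × E n) :
    0 ≤ S.indicator (fun _ => c) z := indicator_nonneg (fun _ _ => hc) z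

theorem gpX_nonneg {c : ℝ} (hc : 0 ≤ c) (S : Set (E n × E n)) (h : E n → ℝ) (x u : E n)
    {σ τ : ℝ} (hστ : σ < τ) : 0 ≤ gpX G c S h x u σ τ :=
  mul_nonneg (mul_nonneg (gp_ind_nonneg hc S _) (jac_nonneg (G := G) x u hστ.le))
    (mul_nonneg (norm_nonneg _) (norm_nonneg _))

/-- Case distinction: either the gain vanishes, or the pair satisfies `Gap`. -/
theorem gp_cases {Φ : ℝ × ℝ → ℝ} {lam H s : ℝ} {f : ℝ → ℝ} {h : E n → ℝ} {c : ℝ}
    {S : Set (E n × E n)}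
    (hgap : ∀ p q, (p, q) ∈ S → p ≠ q → G.D h p ≠ 0 → G.D h q ≠ 0 →
      Gap G k Φ lam H s f c p q (G.ang h p q) (G.ang h q p))
    (x : E n) {u : E n} (hu : ‖u‖ = 1) {σ τ : ℝ} (hστ : σ < τ) :
    gpX G c S h x u σ τ = 0 ∨
      (S.indicator (fun _ => c) (G.ex x (σ • u), G.ex x (τ • u)) = c ∧
        c + H / 2 * (ph Φ (τ - σ) (-G.ca h x u τ) * max (G.ca h x u σ) 0) ≤
          NH k (n - 1) Φ lam (τ - σ) (G.ca h x u σ) (-G.ca h x u τ) ∧
        c + H / 2 * (ph Φ (τ - σ) (G.ca h x u σ) * max (-G.ca h x u τ) 0) ≤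
          NH k (n - 1) Φ lam (τ - σ) (G.ca h x u σ) (-G.ca h x u τ) ∧
        (0 ≤ G.ca h x u σ → 0 ≤ -G.ca h x u τ →
          G.ca h x u σ * -G.ca h x u τ *
            (s * (τ - σ) - (f (G.ca h x u σ) + f (-G.ca h x u τ)) / 2) ≤
          (kexs G k Φ lam H (G.ex x (σ • u)) (G.ex x (τ • u)) (G.ca h x u σ) (-G.ca h x u τ) - c)
            * jac G x u σ τ)) := by
  by_cases hS : (G.ex x (σ • u), G.ex x (τ • u)) ∈ S
  swap
  · left
    unfold gpX
    rw [indicator_of_notMem hS]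
    ring
  by_cases h1 : G.D h (G.ex x (σ • u)) = 0
  · left
    unfold gpX
    rw [h1, norm_zero]
    ring
  by_cases h2 : G.D h (G.ex x (τ • u)) = 0
  · left
    unfold gpX
    rw [h2, norm_zero]
    ring
  right
  have hne : G.ex x (σ • u) ≠ G.ex x (τ • u) := by
    intro he
    have h3 := ry_lg1_ne (G := G) x hu hστ
    apply h3
    rw [he]
    have h4 := G.norm_lg_comm (G.ex x (τ • u)) (G.ex x (τ • u))
    have h5 := G.lg_ex (G.ex x (τ • u)) 0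
    rw [G.ex_zero] at h5
    exact h5
  obtain ⟨g1, g2, g6⟩ := hgap _ _ hS hne h1 h2
  obtain ⟨a1, a2, a3⟩ := ang_geod G h x hu hστ
  rw [a1, a2, a3] at g1 g2 g6
  refine ⟨indicator_of_mem hS _, g1, g2, ?_⟩
  intro ha hb
  have g := g6 ha hb
  have hj : |(G.T (G.ex x (σ • u)) (G.lg (G.ex x (σ • u)) (G.ex x (τ • u)))).det| *
      (τ - σ) ^ (n - 1) = jac G x u σ τ := by
    unfold jac
    rw [lg_along]
  rw [hj] at g
  exact g

theorem gp_c1a (hG : Curv G k) {Φ : ℝ × ℝ → ℝ} {lam H s : ℝ}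
    {f : ℝ → ℝ} (hg : Good n k Φ lam H s f) (hH : 0 ≤ H) {h : E n → ℝ} (hh : ContDiff ℝ 1 h)
    {c : ℝ} {S : Set (E n × E n)}
    (hgap : ∀ p q, (p, q) ∈ S → p ≠ q → G.D h p ≠ 0 → G.D h q ≠ 0 →
      Gap G k Φ lam H s f c p q (G.ang h p q) (G.ang h q p))
    (x : E n) {u : E n} (hu : ‖u‖ = 1) {σ τ : ℝ} (hστ : σ < τ) :
    ryQ2 G Φ H h x u σ τ * deriv (fun s : ℝ => h (G.ex x (s • u))) σ ≤
      gpP G k Φ lam H c S h x u σ τ := by
  rcases gp_cases hgap x hu hστ with h0 | ⟨hi, g1, -, -⟩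
  · unfold gpP
    rw [h0, sub_zero]
    exact ry_c1a hG hg hH hh x hu hστ
  unfold gpP gpX
  rw [deriv_geod G hh, ry_P Φ lam H h x hu hστ, hi]
  unfold ryQ2
  have hr : 0 < τ - σ := sub_pos.2 hστ
  have ha := ry_ca (G := G) h x hu σ
  have hb := ry_can (G := G) h x hu τ
  have hB := ry_bonus_nonneg hG hg x hu hστ ha hb
  have hp := ry_ph_nonneg hg hr.le hb
  have hJ := jac_nonneg (G := G) x u hστ.le
  have e1 : H / 2 * (ph Φ (τ - σ) (-G.ca h x u τ) * G.ca h x u σ) ≤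
      NH k (n - 1) Φ lam (τ - σ) (G.ca h x u σ) (-G.ca h x u τ) +
        ryB G k Φ (G.ex x (σ • u)) (G.ex x (τ • u)) (τ - σ) (G.ca h x u σ) (-G.ca h x u τ) - c := by
    have e2 : H / 2 * (ph Φ (τ - σ) (-G.ca h x u τ) * G.ca h x u σ) ≤
        H / 2 * (ph Φ (τ - σ) (-G.ca h x u τ) * max (G.ca h x u σ) 0) :=
      mul_le_mul_of_nonneg_left (mul_le_mul_of_nonneg_left (le_max_left _ _) hp) (by linarith)
    linarith
  have e3 := mul_le_mul_of_nonneg_right (mul_le_mul_of_nonneg_right e1 hJ)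
    (mul_nonneg (norm_nonneg (G.D h (G.ex x (σ • u)))) (norm_nonneg (G.D h (G.ex x (τ • u)))))
  refine le_trans (le_of_eq ?_) (e3.trans (le_of_eq ?_))
  · ring
  · ring

theorem gp_c1b (hG : Curv G k) {Φ : ℝ × ℝ → ℝ} {lam H s : ℝ}
    {f : ℝ → ℝ} (hg : Good n k Φ lam H s f) (hH : 0 ≤ H) {h : E n → ℝ} (hh : ContDiff ℝ 1 h)
    {c : ℝ} {S : Set (E n × E n)}
    (hgap : ∀ p q, (p, q) ∈ S → p ≠ q → G.D h p ≠ 0 → G.D h q ≠ 0 →
      Gap G k Φ lam H s f c p q (G.ang h p q) (G.ang h q p))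
    (x : E n) {u : E n} (hu : ‖u‖ = 1) {σ τ : ℝ} (hστ : σ < τ) :
    ryQ1 G Φ H h x u σ τ * -deriv (fun s : ℝ => h (G.ex x (s • u))) τ ≤
      gpP G k Φ lam H c S h x u σ τ := by
  rcases gp_cases hgap x hu hστ with h0 | ⟨hi, -, g2, -⟩
  · unfold gpP
    rw [h0, sub_zero]
    exact ry_c1b hG hg hH hh x hu hστ
  unfold gpP gpX
  rw [deriv_geod G hh, ry_P Φ lam H h x hu hστ, hi]
  unfold ryQ1
  have hr : 0 < τ - σ := sub_pos.2 hστ
  have ha := ry_ca (G := G) h x hu σ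
  have hb := ry_can (G := G) h x hu τ
  have hB := ry_bonus_nonneg hG hg x hu hστ ha hb
  have hp := ry_ph_nonneg hg hr.le ha
  have hJ := jac_nonneg (G := G) x u hστ.le
  have e1 : H / 2 * (ph Φ (τ - σ) (G.ca h x u σ) * -G.ca h x u τ) ≤
      NH k (n - 1) Φ lam (τ - σ) (G.ca h x u σ) (-G.ca h x u τ) +
        ryB G k Φ (G.ex x (σ • u)) (G.ex x (τ • u)) (τ - σ) (G.ca h x u σ) (-G.ca h x u τ) - c := by
    have e2 : H / 2 * (ph Φ (τ - σ) (G.ca h x u σ) * -G.ca h x u τ) ≤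
        H / 2 * (ph Φ (τ - σ) (G.ca h x u σ) * max (-G.ca h x u τ) 0) :=
      mul_le_mul_of_nonneg_left (mul_le_mul_of_nonneg_left (le_max_left _ _) hp) (by linarith)
    linarith
  have e3 := mul_le_mul_of_nonneg_right (mul_le_mul_of_nonneg_right e1 hJ)
    (mul_nonneg (norm_nonneg (G.D h (G.ex x (σ • u)))) (norm_nonneg (G.D h (G.ex x (τ • u)))))
  refine le_trans (le_of_eq ?_) (e3.trans (le_of_eq ?_))
  · ring
  · ring

theorem gp_P_nonneg (hG : Curv G k) {Φ : ℝ × ℝ → ℝ} {lam H s : ℝ}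
    {f : ℝ → ℝ} (hg : Good n k Φ lam H s f) (hH : 0 ≤ H) {h : E n → ℝ}
    {c : ℝ} {S : Set (E n × E n)}
    (hgap : ∀ p q, (p, q) ∈ S → p ≠ q → G.D h p ≠ 0 → G.D h q ≠ 0 →
      Gap G k Φ lam H s f c p q (G.ang h p q) (G.ang h q p))
    (x : E n) {u : E n} (hu : ‖u‖ = 1) {σ τ : ℝ} (hστ : σ < τ) :
    0 ≤ gpP G k Φ lam H c S h x u σ τ := by
  rcases gp_cases hgap x hu hστ with h0 | ⟨hi, g1, -, -⟩
  · unfold gpP
    rw [h0, sub_zero]
    exact ry_P_nonneg hG hg hH h x hu hστ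
  unfold gpP gpX
  rw [ry_P Φ lam H h x hu hστ, hi]
  have hr : 0 < τ - σ := sub_pos.2 hστ
  have ha := ry_ca (G := G) h x hu σ
  have hb := ry_can (G := G) h x hu τ
  have hB := ry_bonus_nonneg hG hg x hu hστ ha hb
  have hp := ry_ph_nonneg hg hr.le hb
  have hJ := jac_nonneg (G := G) x u hστ.le
  have e1 : 0 ≤ H / 2 * (ph Φ (τ - σ) (-G.ca h x u τ) * max (G.ca h x u σ) 0) :=
    mul_nonneg (by linarith) (mul_nonneg hp (le_max_right _ _))
  have e2 : 0 ≤ NH k (n - 1) Φ lam (τ - σ) (G.ca h x u σ) (-G.ca h x u τ) +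
        ryB G k Φ (G.ex x (σ • u)) (G.ex x (τ • u)) (τ - σ) (G.ca h x u σ) (-G.ca h x u τ) - c := by
    linarith
  have e3 := mul_nonneg (mul_nonneg e2 hJ)
    (mul_nonneg (norm_nonneg (G.D h (G.ex x (σ • u)))) (norm_nonneg (G.D h (G.ex x (τ • u)))))
  refine e3.trans (le_of_eq ?_)
  ring

theorem gp_c6 (hn : 2 ≤ n) (hk : 0 ≤ k) (hG : Curv G k) {Φ : ℝ × ℝ → ℝ} {lam H s : ℝ}
    {f : ℝ → ℝ} (hg : Good n k Φ lam H s f) {h : E n → ℝ} (hh : ContDiff ℝ 1 h)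
    {c : ℝ} {S : Set (E n × E n)}
    (hgap : ∀ p q, (p, q) ∈ S → p ≠ q → G.D h p ≠ 0 → G.D h q ≠ 0 →
      Gap G k Φ lam H s f c p q (G.ang h p q) (G.ang h q p))
    (x : E n) {u : E n} (hu : ‖u‖ = 1) {σ τ : ℝ} (hστ : σ < τ)
    (h1 : 0 ≤ deriv (fun s : ℝ => h (G.ex x (s • u))) σ)
    (h2 : deriv (fun s : ℝ => h (G.ex x (s • u))) τ ≤ 0) :
    deriv (fun s : ℝ => h (G.ex x (s • u))) σ * -deriv (fun s : ℝ => h (G.ex x (s • u))) τ *
      (s * (τ - σ) - (f (clip (G.ca h x u σ)) + f (clip (-G.ca h x u τ))) / 2) ≤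
      gkS G (kexc G k Φ lam H c S) h x u σ τ := by
  rw [gp_gkS]
  rcases gp_cases hgap x hu hστ with h0 | ⟨hi, -, -, g6⟩
  · rw [h0, sub_zero]
    exact ry_c6 hn hk hG hg hh x hu hστ h1 h2
  unfold gpX
  rw [hi]
  rw [deriv_geod G hh] at h1 h2 ⊢
  rw [deriv_geod G hh]
  have ha := ry_ca (G := G) h x hu σ
  have hb := ry_can (G := G) h x hu τ
  unfold gkS
  set a := G.ca h x u σ with hadef
  have hbdef : G.ca h x u τ = -(-G.ca h x u τ) := (neg_neg _).symm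
  rw [hbdef] at h2 ⊢
  set b := -G.ca h x u τ with hbd
  rw [neg_neg] at *
  set p := ‖G.D h (G.ex x (σ • u))‖ with hp
  set q := ‖G.D h (G.ex x (τ • u))‖ with hq
  have hp0 : 0 ≤ p := norm_nonneg _
  have hq0 : 0 ≤ q := norm_nonneg _
  rcases hp0.eq_or_lt with hp1 | hp1
  · rw [← hp1]
    simp
  rcases hq0.eq_or_lt with hq1 | hq1
  · rw [← hq1]
    simp
  have ha0 : 0 ≤ a := by
    by_contra hneg
    rw [not_le] at hneg
    have := mul_neg_of_neg_of_pos hneg hp1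
    linarith
  have hb0 : 0 ≤ b := by
    by_contra hneg
    rw [not_le] at hneg
    have := mul_neg_of_neg_of_pos hneg hq1
    linarith
  have ha1 : a ≤ 1 := (le_abs_self _).trans ha
  have hb1 : b ≤ 1 := (le_abs_self _).trans hb
  rw [clip_of_mem ha0 ha1, clip_of_mem hb0 hb1]
  have e := mul_le_mul_of_nonneg_right (g6 ha0 hb0) (mul_nonneg hp0 hq0)
  refine le_trans (le_of_eq ?_) (e.trans (le_of_eq ?_))
  · ring
  · ring

theorem gpX_meas {c : ℝ} {S : Set (E n × E n)} (hS : MeasurableSet S) {h : E n → ℝ}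
    (hh : ContDiff ℝ 1 h) (x u : E n) :
    Measurable (Function.uncurry (gpX G c S h x u)) := by
  unfold Function.uncurry gpX
  have hγ := (continuous_geod G x u).measurable
  have m1 : Measurable fun z : ℝ × ℝ => S.indicator (fun _ => c)
      (G.ex x (z.1 • u), G.ex x (z.2 • u)) :=
    (measurable_const.indicator hS).comp ((hγ.comp measurable_fst).prodMk (hγ.comp measurable_snd))
  have m4 : Measurable fun z : ℝ × ℝ => jac G x u z.1 z.2 := (ry_T_cont x u).measurable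
  have m5 : Measurable fun z : ℝ × ℝ => ‖G.D h (G.ex x (z.1 • u))‖ *
      ‖G.D h (G.ex x (z.2 • u))‖ :=
    ((ry_D_meas hh x u).measurable.comp measurable_fst).mul
      ((ry_D_meas hh x u).measurable.comp measurable_snd)
  exact (m1.mul m4).mul m5

theorem ray_gap (hn : 2 ≤ n) (hk : 0 ≤ k) (hG : Curv G k) {Φ : ℝ × ℝ → ℝ} {lam H s : ℝ}
    {f : ℝ → ℝ} (hg : Good n k Φ lam H s f) (hH : 0 ≤ H) (hs : 0 ≤ s) (hf : Continuous f)
    (hf0 : ∀ a ∈ Icc (0 : ℝ) 1, 0 ≤ f a) {h : E n → ℝ} (hh : ContDiff ℝ 1 h)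
    (hc : HasCompactSupport h) (h01 : ∀ x, 0 ≤ h x ∧ h x ≤ 1) {c₀ : ℝ} (hc₀ : 0 ≤ c₀)
    {S : Set (E n × E n)} (hS : MeasurableSet S)
    (hgap : ∀ p q, (p, q) ∈ S → p ≠ q → G.D h p ≠ 0 → G.D h q ≠ 0 →
      Gap G k Φ lam H s f c₀ p q (G.ang h p q) (G.ang h q p)) {x u : E n} (hu : ‖u‖ = 1) :
    ENNReal.ofReal (s * volume.real {t : ℝ | h (G.ex x (t • u)) = 1}) +
        (∫⁻ σ, ∫⁻ τ in Ioi σ, ENNReal.ofReal (-gkS G (kexc G k Φ lam H c₀ S) h x u σ τ)) ≤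
      (∫⁻ σ, ∫⁻ τ in Ioi σ, ENNReal.ofReal (gkS G (kexc G k Φ lam H c₀ S) h x u σ τ)) +
        ENNReal.ofReal (btL G f h x u univ) := by
  obtain ⟨δ, hδ, hΦ⟩ := hg.smooth
  obtain ⟨B, hB, hwin⟩ := ry_window (G := G) hc x hu
  obtain ⟨M, hM⟩ := ry_bounds (G := G) hk hδ hΦ lam H hh x hu B
  obtain ⟨c, hcb⟩ := (isCompact_Icc (a := (0 : ℝ)) (b := 1)).exists_bound_of_continuousOn
    hf.continuousOn
  have hfc : ∀ a : ℝ, 0 ≤ f (clip a) ∧ f (clip a) ≤ c := fun a =>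
    ⟨hf0 _ (clip_mem a), (le_abs_self _).trans (hcb _ (clip_mem a))⟩
  have hca := measurable_ca G hh x u
  have hm1 : Measurable fun t => f (clip (G.ca h x u t)) :=
    (hf.measurable.comp continuous_clip.measurable).comp hca
  have hm2 : Measurable fun t => f (clip (-G.ca h x u t)) :=
    (hf.measurable.comp continuous_clip.measurable).comp hca.neg
  have hout : ∀ t, t ∉ Ioo (-B) B → G.ex x (t • u) ∉ tsupport h := by
    intro t ht hmem
    exact ht (abs_lt.1 (hwin t hmem))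
  have hk0 : ∀ t, t ∉ Ioo (-B) B → h (G.ex x (t • u)) = 0 := fun t ht =>
    image_eq_zero_of_notMem_tsupport (hout t ht)
  have hD0 : ∀ t, t ∉ Ioo (-B) B → ‖G.D h (G.ex x (t • u))‖ = 0 := fun t ht => by
    rw [ry_D_zero (hout t ht), norm_zero]
  have hgeom : ∀ σ τ, gkS G (kexc G k Φ lam H c₀ S) h x u σ τ =
      gpP G k Φ lam H c₀ S h x u σ τ +
        ryQ1 G Φ H h x u σ τ * deriv (fun s : ℝ => h (G.ex x (s • u))) τ -
        ryQ2 G Φ H h x u σ τ * deriv (fun s : ℝ => h (G.ex x (s • u))) σ := by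
    intro σ τ
    rw [gp_gkS, ry_geom Φ lam H hh x u σ τ]
    unfold gpP
    ring
  have hPm : Measurable (Function.uncurry (gpP G k Φ lam H c₀ S h x u)) :=
    (ry_P_meas (G := G) hk hδ hΦ lam H hh x u).sub (gpX_meas hS hh x u)
  have key := line_thm (k := fun t : ℝ => h (G.ex x (t • u))) (contDiff_geod G hh x u)
    (fun t => h01 _) (A := -B) (B := B) (by linarith)
    (fun t ht => hk0 t fun hm => absurd hm.1 (not_lt.2 ht))
    (fun t ht => hk0 t fun hm => absurd hm.2 (not_lt.2 ht))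
    hPm (ry_Q1_meas (G := G) hδ hΦ H hh x u)
    (ry_Q2_meas (G := G) hδ hΦ H hh x u) (M := M)
    (fun σ τ h1 h2 h3 => ⟨gp_P_nonneg hG hg hH hgap x hu h2,
      (sub_le_self _ (gpX_nonneg hc₀ S h x u h2)).trans
        ((le_abs_self _).trans (hM σ τ h1 h2 h3).1)⟩)
    (fun σ τ h1 h2 h3 => ⟨ry_Q1_nonneg hg hH h x hu h2,
      (le_abs_self _).trans (hM σ τ h1 h2 h3).2.1⟩)
    (fun σ τ h1 h2 h3 => ⟨ry_Q2_nonneg hg hH h x hu h2,
      (le_abs_self _).trans (hM σ τ h1 h2 h3).2.2⟩)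
    (fun σ _ τ hτ τ' _ hle => ry_Q1_mono hn hk hG hg hH h x hu hτ.1 hle)
    (fun τ _ σ' _ σ hσ hle => ry_Q2_anti hn hk hG hg hH h x hu hσ.2 hle)
    (fun σ τ _ h2 _ _ => gp_c1a hG hg hH hh hgap x hu h2)
    (fun σ τ _ h2 _ _ => gp_c1b hG hg hH hh hgap x hu h2) hs
    (f₁ := fun t => f (clip (G.ca h x u t))) (f₂ := fun t => f (clip (-G.ca h x u t)))
    hm1 hm2 (fun t => hfc _) (fun t => hfc _)
    (fun σ τ _ h2 _ h4 h5 => by
      rw [← hgeom σ τ]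
      exact gp_c6 hn hk hG hg hh hgap x hu h2 h4 h5)
    (g := gkS G (kexc G k Φ lam H c₀ S) h x u)
    (fun σ τ _ _ _ => hgeom σ τ)
  have hg0 : ∀ σ τ, σ ∉ Ioo (-B) B ∨ τ ∉ Ioo (-B) B →
      gkS G (kexc G k Φ lam H c₀ S) h x u σ τ = 0 := by
    intro σ τ hor
    unfold gkS
    rcases hor with h1 | h1
    · rw [hD0 σ h1, zero_mul, mul_zero]
    · rw [hD0 τ h1, mul_zero, mul_zero]
  rw [ry_full (A := -B) (B := B) (fun σ τ hor => by rw [hg0 σ τ hor, neg_zero, ENNReal.ofReal_zero]),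
    ry_full (A := -B) (B := B) (fun σ τ hor => by rw [hg0 σ τ hor, ENNReal.ofReal_zero])]
  refine key.trans (le_of_eq ?_)
  congr 2
  unfold btL
  have e1 : ∫ t in univ, f (clip (G.ca h x u t)) *
      max 0 (G.ca h x u t * ‖G.D h (G.ex x (t • u))‖) =
      ∫ t in Ioo (-B) B, f (clip (G.ca h x u t)) *
        max 0 (deriv (fun t : ℝ => h (G.ex x (t • u))) t) := by
    rw [Measure.restrict_univ]
    simp only [deriv_geod G hh x u]
    symm
    apply setIntegral_eq_integral_of_forall_compl_eq_zero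
    intro t ht
    rw [hD0 t ht, mul_zero, max_self, mul_zero]
  have e2 : ∫ t in univ, f (clip (-G.ca h x u t)) *
      max 0 (-(G.ca h x u t) * ‖G.D h (G.ex x (t • u))‖) =
      ∫ t in Ioo (-B) B, f (clip (-G.ca h x u t)) *
        max 0 (-deriv (fun t : ℝ => h (G.ex x (t • u))) t) := by
    rw [Measure.restrict_univ]
    simp only [deriv_geod G hh x u, neg_mul]
    symm
    apply setIntegral_eq_integral_of_forall_compl_eq_zero
    intro t ht
    rw [hD0 t ht, mul_zero, neg_zero, max_self, mul_zero]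
  rw [e1, e2]

variable (G)

/-- PROOF: as `two_point_H` (TwoPointH.lean) with `two_point_lines` for the kernel
`κ' p q a b = kexs p q a b - S.indicator (fun _ => c) (p, q)` and as `ray_H` (RayH.lean) with
`P' σ τ = ryP σ τ - c 1_S(γ σ, γ τ) jac σ τ |D h|(γ σ) |D h|(γ τ)`, the same `Q₁, Q₂`; where
`D h = 0` at one of the points `P' = P`; for `(γ σ, γ τ) ∈ S` use `Gap`: `a = ang h p q = ca σ`,
`b = ang h q p = -ca τ` (`TP.ang_geod`-like lemmas, see `pairH_gkS`), `jac σ τ =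
|det T p (lg p q)| r^(n-1)` (`jac`, `lg_along`). Finally
`pairX κ' h = pairX kexs h - c ∫_S |D h||D h|` and `pairX_symm`. -/
theorem two_point_gap (hn : 2 ≤ n) (hk : 0 ≤ k) (hG : Curv G k) {Φ : ℝ × ℝ → ℝ} {lam H s F : ℝ}
    {f : ℝ → ℝ} (hg : Good n k Φ lam H s f) (hH : 0 ≤ H) (hs : 0 ≤ s) (hf : Continuous f)
    (hf0 : ∀ a ∈ Icc (0 : ℝ) 1, 0 ≤ f a)
    (hF : ∀ e : E n, ‖e‖ = 1 →
      ∫ u : sphere (0 : E n) 1, f (max 0 (inner ℝ e (u : E n))) * max 0 (inner ℝ e (u : E n))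
        ∂((volume : Measure (E n)).toSphere) ≤ F) {o : E n} {ρ : ℝ} (hρ : 0 < ρ) {h : E n → ℝ}
    (hh : G.Cls o ρ h) {c : ℝ} (hc : 0 ≤ c) {S : Set (E n × E n)} (hS : MeasurableSet S)
    (hgap : ∀ p q, (p, q) ∈ S → p ≠ q → G.D h p ≠ 0 → G.D h q ≠ 0 →
      Gap G k Φ lam H s f c p q (G.ang h p q) (G.ang h q p)) :
    s * sig n * V1 G h - F * G.per h +
        c * ∫ z in S, ‖G.D h z.1‖ * ‖G.D h z.2‖ ∂(G.vol.prod G.vol) ≤
      pairX G (kex G k Φ lam H) h := by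
  have hcs : HasCompactSupport h := Cls.hasCompactSupport G hh
  obtain ⟨δ, hδ, hΦ⟩ := hg.smooth
  rw [← pairX_symm G hk hδ hΦ lam H hh.smooth hcs]
  have hi1 : Measurable fun z : E n × E n × ℝ × ℝ => S.indicator (fun _ => c) (z.1, z.2.1) :=
    (measurable_const.indicator hS).comp (measurable_fst.prodMk (measurable_fst.comp measurable_snd))
  have hκm : Measurable fun z : E n × E n × ℝ × ℝ =>
      kexc G k Φ lam H c S z.1 z.2.1 z.2.2.1 z.2.2.2 :=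
    (measurable_kexs G hk hδ hΦ lam H).sub hi1
  have hib : ∀ z : E n × E n, |S.indicator (fun _ => c) z| ≤ c := by
    intro z
    rw [abs_of_nonneg (gp_ind_nonneg hc S z)]
    exact indicator_le_self' (fun _ _ => hc) z
  have hκb : ∀ K : Set (E n), IsCompact K → ∃ C : ℝ, 0 ≤ C ∧ ∀ p ∈ K, ∀ q ∈ K, ∀ a b : ℝ,
      |a| ≤ 1 → |b| ≤ 1 → |kexc G k Φ lam H c S p q a b| ≤ C := by
    intro K hK
    obtain ⟨C, hC0, hC⟩ := kexs_bound G hk hδ hΦ lam H hK
    refine ⟨C + c, by positivity, ?_⟩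
    intro p hp q hq a b ha hb
    unfold kexc
    exact (abs_sub _ _).trans (add_le_add (hC p hp q hq a b ha hb) (hib _))
  have key := two_point_lines G hn hρ hκm hκb hs hf hf0 hF hh
    (fun x u hu => ray_gap hn hk hG hg hH hs hf hf0 hh.smooth hcs
      (fun x => ⟨hh.nonneg x, hh.le_one x⟩) hc hS hgap hu)
  have h1 := integrable_pairX G (measurable_kexs G hk hδ hΦ lam H)
    (fun K hK => kexs_bound G hk hδ hΦ lam H hK) hh.smooth hcs
  have h2 := integrable_pairX G (κ := fun p q _ _ => S.indicator (fun _ => c) (p, q)) hi1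
    (fun K _ => ⟨c, hc, fun p _ q _ a b _ _ => hib _⟩) hh.smooth hcs
  have e : pairX G (kexc G k Φ lam H c S) h = pairX G (kexs G k Φ lam H) h -
      c * ∫ z in S, ‖G.D h z.1‖ * ‖G.D h z.2‖ ∂(G.vol.prod G.vol) := by
    unfold pairX
    rw [← integral_const_mul, ← integral_indicator hS, ← integral_sub h1 (by
      refine h2.congr (Filter.Eventually.of_forall fun z => ?_)
      by_cases hz : z ∈ S
      · simp only [indicator_of_mem hz]
      · simp only [indicator_of_notMem hz, zero_mul])]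
    refine integral_congr_ae (Filter.Eventually.of_forall fun z => ?_)
    simp only [kexc]
    by_cases hz : z ∈ S
    · rw [indicator_of_mem (show (z.1, z.2) ∈ S from hz), indicator_of_mem hz]
      ring
    · rw [indicator_of_notMem (show (z.1, z.2) ∉ S from hz), indicator_of_notMem hz]
      ring
  rw [e] at key
  linarith

end Vale.Agent.P219.TPH
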