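import Vale.Agent.P219.TPH.CurvH
import Vale.Agent.P219.TPH.BridgeH
import Vale.Agent.P219.TPR.RigGeo

/-! # Sets whose boundary consists of model chords: curvature `≤ -1` -/

open MeasureTheory Set Metric Filter Topology
open scoped ENNReal ContDiff

namespace Vale.Agent.P219.TPH

open Vale.Agent.P219.TP

variable {n : ℕ}

/-- In normal coordinates at a point of its boundary: the hyperbolic ball of radius `R` with inner
normal `N` at `0`. -/
def regH (N : E n) (R : ℝ) : Set (E n) :=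
  {v | Real.sinh (‖v‖ / 2) * Real.cosh R * ‖v‖ < inner ℝ v N * (Real.cosh (‖v‖ / 2) * Real.sinh R)}

/-- The hyperbolic metric in normal coordinates, at `v ≠ 0`. -/
noncomputable def mq (v z : E n) : ℝ :=
  inner ℝ v z ^ 2 / ‖v‖ ^ 2 +
    (Real.sinh ‖v‖ / ‖v‖) ^ 2 * (‖z‖ ^ 2 - inner ℝ v z ^ 2 / ‖v‖ ^ 2)

/-- A linear map which does not decrease norms and has determinant `±1` is an isometry. -/
theorem geoBallH_isometry (T : E n →L[ℝ] E n) (hT : ∀ z, ‖z‖ ≤ ‖T z‖) (h : |T.det| = 1) (z : E n) :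
    ‖T z‖ = ‖z‖ := by
  by_contra hne
  have hlt : ‖z‖ < ‖T z‖ := lt_of_le_of_ne (hT z) (Ne.symm hne)
  -- rescale so that `‖c z‖ < 1 < ‖T (c z)‖`
  obtain ⟨c, hc0, hc1, hc2⟩ : ∃ c : ℝ, 0 < c ∧ c * ‖z‖ < 1 ∧ 1 < c * ‖T z‖ := by
    set a := ‖z‖
    set b := ‖T z‖
    have ha : 0 ≤ a := norm_nonneg _
    have hab : 0 < a + b := by linarith
    refine ⟨2 / (a + b), by positivity, ?_, ?_⟩
    · rw [div_mul_eq_mul_div, div_lt_one hab]; linarith
    · rw [div_mul_eq_mul_div, one_lt_div hab]; linarith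
  have hdet : T.det ≠ 0 := by
    intro h0
    rw [h0, abs_zero] at h
    exact zero_ne_one h
  have hpre : (volume : Measure (E n)) (T ⁻¹' closedBall (0 : E n) 1) =
      (volume : Measure (E n)) (closedBall (0 : E n) 1) := by
    rw [Measure.addHaar_preimage_continuousLinearMap _ hdet, abs_inv, h]
    simp
  have hsub : T ⁻¹' closedBall (0 : E n) 1 ⊆ closedBall (0 : E n) 1 := by
    intro y hy
    rw [mem_preimage, mem_closedBall_zero_iff] at hy
    rw [mem_closedBall_zero_iff]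
    exact (hT y).trans hy
  set U : Set (E n) := ball (0 : E n) 1 \ (T ⁻¹' closedBall (0 : E n) 1) with hU
  have hcl : IsClosed (T ⁻¹' closedBall (0 : E n) 1) :=
    isClosed_closedBall.preimage T.continuous
  have hUo : IsOpen U := isOpen_ball.sdiff hcl
  have hUne : U.Nonempty := by
    refine ⟨c • z, ?_, ?_⟩
    · rw [mem_ball_zero_iff, norm_smul, Real.norm_of_nonneg hc0.le]
      exact hc1
    · rw [mem_preimage, mem_closedBall_zero_iff, map_smul, norm_smul, Real.norm_of_nonneg hc0.le]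
      exact not_le.2 hc2
  have hUpos : 0 < (volume : Measure (E n)) U := hUo.measure_pos _ hUne
  have hdisj : Disjoint (T ⁻¹' closedBall (0 : E n) 1) U := disjoint_sdiff_right
  have hun : T ⁻¹' closedBall (0 : E n) 1 ∪ U ⊆ closedBall (0 : E n) 1 := by
    refine union_subset hsub (fun y hy => ball_subset_closedBall hy.1)
  have hle := measure_mono (μ := (volume : Measure (E n))) hun
  rw [measure_union hdisj hUo.measurableSet, hpre] at hle
  have hfin : (volume : Measure (E n)) (closedBall (0 : E n) 1) ≠ ⊤ := measure_closedBall_lt_top.ne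
  have := ENNReal.add_lt_add_left (a := (volume : Measure (E n)) (closedBall (0 : E n) 1)) hfin hUpos
  rw [add_zero] at this
  exact absurd hle (not_le.2 this)

/-- Orthogonal decomposition along `v`. -/
theorem geoBallH_decomp {v : E n} (hv : v ≠ 0) (z : E n) :
    ∃ (c : ℝ) (y : E n), inner ℝ v y = 0 ∧ z = c • v + y := by
  have hv0 : ‖v‖ ≠ 0 := norm_ne_zero_iff.2 hv
  refine ⟨inner ℝ v z / ‖v‖ ^ 2, z - (inner ℝ v z / ‖v‖ ^ 2) • v, ?_, by abel⟩
  rw [inner_sub_right, real_inner_smul_right, real_inner_self_eq_norm_sq]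
  field_simp
  ring

theorem geoBallH_mq {v : E n} (hv : v ≠ 0) (c : ℝ) {y : E n} (hy : inner ℝ v y = 0) :
    mq v (c • v + y) = c ^ 2 * ‖v‖ ^ 2 + (Real.sinh ‖v‖ / ‖v‖) ^ 2 * ‖y‖ ^ 2 := by
  have hv0 : ‖v‖ ≠ 0 := norm_ne_zero_iff.2 hv
  have h1 : inner ℝ v (c • v + y) = c * ‖v‖ ^ 2 := by
    rw [inner_add_right, real_inner_smul_right, hy, real_inner_self_eq_norm_sq, add_zero]
  have h2 : ‖c • v + y‖ ^ 2 = c ^ 2 * ‖v‖ ^ 2 + ‖y‖ ^ 2 := curvh_norm_add c rfl hy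
  have h3 : (c * ‖v‖ ^ 2) ^ 2 / ‖v‖ ^ 2 = c ^ 2 * ‖v‖ ^ 2 := by
    field_simp
  rw [mq, h1, h2, h3]
  ring

variable (G : Geo n)

theorem geoBallH_T (x : E n) {v : E n} (c : ℝ) {y : E n} (hy : inner ℝ v y = 0) :
    ‖G.T x v (c • v + y)‖ ^ 2 = c ^ 2 * ‖v‖ ^ 2 + ‖G.T x v y‖ ^ 2 := by
  have e1 := curvh_norm_T_smul (G := G) x v one_pos
  have e2 := curvh_inner_T_smul (G := G) x hy one_pos
  rw [one_smul] at e1 e2
  rw [map_add, map_smul]
  exact curvh_norm_add c e1 e2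

theorem geoBallH_of_perp (x : E n) {v : E n} (hv : v ≠ 0)
    (h : ∀ y, inner ℝ v y = 0 → ‖G.T x v y‖ = Real.sinh ‖v‖ / ‖v‖ * ‖y‖) (z : E n) :
    ‖G.T x v z‖ ^ 2 = mq v z := by
  obtain ⟨c, y, hy, rfl⟩ := geoBallH_decomp hv z
  rw [geoBallH_mq hv c hy, geoBallH_T G x c hy, h y hy, mul_pow]

/-- Equality in the Jacobian comparison. PROOF: `mono_sn` (s → 0) gives `‖T z‖ ≥ (sinh r/r) ‖z‖` for
`z ⊥ v`, `gauss` splits off the radial direction; equality of the determinants forces equality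
for all `z` (compare `isometry_of_det` in TPR/RigGeo.lean: apply it to
`T ∘ (id on ℝ v, (r / sinh r) on v^⊥)`, or use the Gram matrix). -/
theorem model_of_det (hn : 2 ≤ n) (hG : Curv G 1) (x : E n) {v : E n} (hv : v ≠ 0)
    (h : |(G.T x v).det| * ‖v‖ ^ (n - 1) = Real.sinh ‖v‖ ^ (n - 1)) (z : E n) :
    ‖G.T x v z‖ ^ 2 = mq v z := by
  have hv0 : 0 < ‖v‖ := norm_pos_iff.2 hv
  have hsn : 0 < Real.sinh ‖v‖ := Real.sinh_pos_iff.2 hv0
  set β : ℝ := ‖v‖ / Real.sinh ‖v‖ with hβ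
  have hβ0 : 0 < β := div_pos hv0 hsn
  have he : ‖‖v‖⁻¹ • v‖ = 1 := by
    rw [norm_smul, norm_inv, norm_norm, inv_mul_cancel₀ hv0.ne']
  have hlow : ∀ y, inner ℝ v y = 0 → ‖y‖ ≤ β * ‖G.T x v y‖ := by
    intro y hy
    have h1 := norm_T_sn (x := x) zero_le_one hG hv hy
    rw [bridge_sn] at h1
    rw [hβ, div_mul_eq_mul_div, le_div_iff₀ hsn]
    linarith
  set M : E n →L[ℝ] E n := (G.T x v).comp (curvhL (‖v‖⁻¹ • v) β) with hM
  have hMdet : |M.det| = 1 := by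
    have h3 : M.det = (G.T x v).det * β ^ (n - 1) := by
      rw [← curvhL_det (by omega) he hβ0, hM]
      unfold ContinuousLinearMap.det
      rw [ContinuousLinearMap.toLinearMap_comp, LinearMap.det_comp]
    rw [h3, abs_mul, abs_of_pos (pow_pos hβ0 _), hβ, div_pow, mul_div_assoc', h,
      div_self (pow_pos hsn _).ne']
  have hMge : ∀ ξ, ‖ξ‖ ≤ ‖M ξ‖ := by
    intro ξ
    obtain ⟨c, y, hy, hξ, hL⟩ := curvh_decomp hv β hβ0 ξ
    rw [hM, ContinuousLinearMap.comp_apply, hL]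
    have hy' : inner ℝ v (β • y) = 0 := by rw [real_inner_smul_right, hy, mul_zero]
    have h3 := geoBallH_T G x c hy'
    have h4 : ‖ξ‖ ^ 2 = c ^ 2 * ‖v‖ ^ 2 + ‖y‖ ^ 2 := by
      rw [hξ]
      exact curvh_norm_add c rfl hy
    have h5 : ‖y‖ ≤ ‖G.T x v (β • y)‖ := by
      rw [map_smul, norm_smul, Real.norm_eq_abs, abs_of_pos hβ0]
      exact hlow y hy
    have h6 := pow_le_pow_left₀ (norm_nonneg _) h5 2
    exact le_of_sq_le_sq (by rw [h3, h4]; linarith) (norm_nonneg _)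
  have hMi := geoBallH_isometry M hMge hMdet
  refine geoBallH_of_perp G x hv (fun y hy => ?_) z
  have h7 : curvhL (‖v‖⁻¹ • v) β y = β • y := by
    rw [curvhL, linAlgC_apply _ _ _ hβ0, real_inner_smul_left, hy]
    simp
  have h8 := hMi y
  rw [hM, ContinuousLinearMap.comp_apply, h7, map_smul, norm_smul, Real.norm_eq_abs,
    abs_of_pos hβ0] at h8
  rw [← h8, hβ]
  field_simp

/-- PROOF: `mono_sn` for `z ⊥ v`: `s sinh r ‖T x (s v) z‖ ≤ sinh (s r) ‖T x v z‖ = sinh (s r)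
(sinh r/r) ‖z‖`, and `‖T x (s v) z‖ ≥ sinh(s r)/(s r) ‖z‖`; `gauss` for the rest. -/
theorem model_segment (hn : 2 ≤ n) (hG : Curv G 1) (x : E n) {v : E n} (hv : v ≠ 0)
    (h : ∀ z, ‖G.T x v z‖ ^ 2 = mq v z) {s : ℝ} (hs : 0 < s) (hs1 : s ≤ 1) (z : E n) :
    ‖G.T x (s • v) z‖ ^ 2 = mq (s • v) z := by
  have _ := hn
  have hv0 : 0 < ‖v‖ := norm_pos_iff.2 hv
  have hsn : 0 < Real.sinh ‖v‖ := Real.sinh_pos_iff.2 hv0
  have hsv : s • v ≠ 0 := smul_ne_zero hs.ne' hv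
  have hnsv : ‖s • v‖ = s * ‖v‖ := by rw [norm_smul, Real.norm_eq_abs, abs_of_pos hs]
  have hsn2 : 0 < Real.sinh (s * ‖v‖) := Real.sinh_pos_iff.2 (mul_pos hs hv0)
  refine geoBallH_of_perp G x hsv (fun y hy => ?_) z
  have hy1 : inner ℝ v y = 0 := by
    rw [real_inner_smul_left] at hy
    exact (mul_eq_zero.1 hy).resolve_left hs.ne'
  have h1 : ‖G.T x v y‖ = Real.sinh ‖v‖ / ‖v‖ * ‖y‖ := by
    have h2 := h y
    have h3 := geoBallH_mq hv 0 hy1
    rw [zero_smul, zero_add] at h3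
    rw [h3] at h2
    have h4 : ‖G.T x v y‖ ^ 2 = (Real.sinh ‖v‖ / ‖v‖ * ‖y‖) ^ 2 := by rw [h2]; ring
    exact (pow_left_inj₀ (norm_nonneg _)
      (mul_nonneg (div_nonneg hsn.le hv0.le) (norm_nonneg _)) two_ne_zero).1 h4
  have h5 := hG.mono_sn x v y s hy1 hs hs1
  have h6 := norm_T_sn (x := x) zero_le_one hG hsv hy
  rw [bridge_sn, bridge_sn, h1] at h5
  rw [bridge_sn, hnsv] at h6
  rw [hnsv]
  apply le_antisymm
  · rw [div_mul_eq_mul_div, le_div_iff₀ (mul_pos hs hv0)]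
    have h7 : (s * Real.sinh ‖v‖ * ‖G.T x (s • v) y‖) * (‖v‖ / Real.sinh ‖v‖) ≤
        (Real.sinh (s * ‖v‖) * (Real.sinh ‖v‖ / ‖v‖ * ‖y‖)) * (‖v‖ / Real.sinh ‖v‖) :=
      mul_le_mul_of_nonneg_right h5 (div_nonneg hv0.le hsn.le)
    calc ‖G.T x (s • v) y‖ * (s * ‖v‖)
        = (s * Real.sinh ‖v‖ * ‖G.T x (s • v) y‖) * (‖v‖ / Real.sinh ‖v‖) := by field_simp
      _ ≤ _ := h7
      _ = Real.sinh (s * ‖v‖) * ‖y‖ := by field_simp
  · rw [div_mul_eq_mul_div, div_le_iff₀ (mul_pos hs hv0)]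
    linarith

end Vale.Agent.P219.TPH
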