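import Vale.Agent.P219.TPHR.CertHR
import Vale.Agent.P219.TPHR.GapLine
import Vale.Agent.P219.TPR.RigPairAux

/-! # A gap near a pair which is not a chord of the model ball -/

open MeasureTheory Set Metric Filter Topology
open scoped ENNReal ContDiff

namespace Vale.Agent.P219.TPH

open Vale.Agent.P219.TP

variable {n : ℕ} (G : Geo n) {k : ℝ}

/-- The pair `(p, q)` with inner normals `N p, N q` is a chord of the model ball of radius `R`, and
the Jacobian is that of the model. -/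
def ModelPair (k R : ℝ) (N : E n → E n) (p q : E n) : Prop :=
  sn k (‖G.lg p q‖ / 2) * cs k R * ‖G.lg p q‖ =
      inner ℝ (G.lg p q) (N p) * (cs k (‖G.lg p q‖ / 2) * sn k R) ∧
    sn k (‖G.lg p q‖ / 2) * cs k R * ‖G.lg p q‖ =
      inner ℝ (G.lg q p) (N q) * (cs k (‖G.lg p q‖ / 2) * sn k R) ∧
    |(G.T p (G.lg p q)).det| * ‖G.lg p q‖ ^ (n - 1) = sn k ‖G.lg p q‖ ^ (n - 1)

/-! ### Beyond the cutoff -/

theorem lh_chi_deriv {δ r : ℝ} (hδ : 0 < δ) (hr : δ < r) : deriv (niceChi δ) r = 0 := by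
  have h : niceChi δ =ᶠ[𝓝 r] fun _ => 1 := by
    filter_upwards [lt_mem_nhds hr] with t ht
    exact niceChi_one hδ (le_of_lt ht)
  rw [h.deriv_eq, deriv_const]

theorem lh_NH {δ : ℝ} (hδ : 0 < δ) (hk : 0 ≤ k) {φ φr φa : ℝ → ℝ → ℝ} {lam H s : ℝ} {f : ℝ → ℝ}
    (h : Nice n k φ φr φa lam H s f) (ε : ℝ) {r : ℝ} (hr : δ < r) (a b : ℝ) :
    NH k (n - 1) (nicePhi δ φ) (lam + ε) r a b = NN k (n - 1) φ φr φa lam r a b + ε := by
  rw [nice_NH hδ hk h.smooth h.deriv_r h.deriv_a (n - 1) lam ε (hδ.trans hr) a b,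
    niceChi_one hδ hr.le, lh_chi_deriv hδ hr]
  ring

/-- The bonus term of the exact field. -/
noncomputable def lhB (G : Geo n) (k : ℝ) (φ : ℝ → ℝ → ℝ) (p q : E n) (r a b : ℝ) : ℝ :=
  (φ r a / r * b ^ 2 * rtau G k p (G.lg p q) + φ r b / r * a ^ 2 * rtau G k q (G.lg q p)) / 2

theorem lh_kexs {δ : ℝ} (hδ : 0 < δ) (hk : 0 ≤ k) {φ φr φa : ℝ → ℝ → ℝ} {lam H s : ℝ}
    {f : ℝ → ℝ} (h : Nice n k φ φr φa lam H s f) (ε : ℝ) {p q : E n} (hr : δ < ‖G.lg p q‖)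
    (a b : ℝ) :
    kexs G k (nicePhi δ φ) (lam + ε) H p q a b =
      KN k (n - 1) φ φr φa lam H ‖G.lg p q‖ a b + lhB G k φ p q ‖G.lg p q‖ a b + ε := by
  have h0 : 0 < ‖G.lg p q‖ := hδ.trans hr
  rw [ry_kexs (G := G) (r := ‖G.lg p q‖) rfl (G.norm_lg_comm q p), lh_NH hδ hk h ε hr a b,
    nice_ph φ h0 a, nice_ph φ h0 b, niceChi_one hδ hr.le]
  unfold KN lhB ryB
  rw [nicePhi_sq φ h0 a, nicePhi_sq φ h0 b, niceChi_one hδ hr.le]
  ring

theorem lh_NN_symm {φ φr φa : ℝ → ℝ → ℝ} {lam : ℝ} {m : ℕ} (r a b : ℝ) :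
    NN k m φ φr φa lam r a b = NN k m φ φr φa lam r b a := by
  unfold NN
  ring

theorem lh_phi_nonneg {φ φr φa : ℝ → ℝ → ℝ} {lam H s : ℝ} {f : ℝ → ℝ}
    (h : Nice n k φ φr φa lam H s f) {r a : ℝ} (hr : 0 < r) (ha : |a| ≤ 1) : 0 ≤ φ r a := by
  rw [← nice_abs h.even hr a]
  exact h.nonneg r |a| hr (abs_nonneg a) ha

/-! ### Continuity -/

theorem lh_cont_r {φ φr φa : ℝ → ℝ → ℝ} {lam H s : ℝ} {f : ℝ → ℝ}
    (h : Nice n k φ φr φa lam H s f) {p : ℝ × ℝ} (hp : 0 < p.1) :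
    ContinuousAt (fun p : ℝ × ℝ => φr p.1 p.2) p := by
  have ho : IsOpen {p : ℝ × ℝ | 0 < p.1} := isOpen_lt continuous_const continuous_fst
  have h1 : ContinuousOn (fun p => fderiv ℝ (Function.uncurry φ) p (1, 0)) {p | 0 < p.1} :=
    (h.smooth.continuousOn_fderiv_of_isOpen ho (by simp)).clm_apply continuousOn_const
  refine (h1.continuousAt (ho.mem_nhds hp)).congr ?_
  filter_upwards [ho.mem_nhds hp] with p hp
  have hd : HasFDerivAt (Function.uncurry φ) (fderiv ℝ (Function.uncurry φ) p) p :=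
    ((h.smooth.contDiffAt (ho.mem_nhds hp)).differentiableAt (by simp)).hasFDerivAt
  have hc : HasDerivAt (fun t : ℝ => ((t, p.2) : ℝ × ℝ)) (1, 0) p.1 :=
    (hasDerivAt_id p.1).prodMk (hasDerivAt_const p.1 p.2)
  have h2 : HasDerivAt (fun t : ℝ => φ t p.2) (fderiv ℝ (Function.uncurry φ) p (1, 0)) p.1 :=
    HasFDerivAt.comp_hasDerivAt (f := fun t : ℝ => ((t, p.2) : ℝ × ℝ)) p.1 hd hc
  exact h2.unique (h.deriv_r p.1 p.2 hp)

theorem lh_cont_a {φ φr φa : ℝ → ℝ → ℝ} {lam H s : ℝ} {f : ℝ → ℝ}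
    (h : Nice n k φ φr φa lam H s f) {p : ℝ × ℝ} (hp : 0 < p.1) :
    ContinuousAt (fun p : ℝ × ℝ => φa p.1 p.2) p := by
  have ho : IsOpen {p : ℝ × ℝ | 0 < p.1} := isOpen_lt continuous_const continuous_fst
  have h1 : ContinuousOn (fun p => fderiv ℝ (Function.uncurry φ) p (0, 1)) {p | 0 < p.1} :=
    (h.smooth.continuousOn_fderiv_of_isOpen ho (by simp)).clm_apply continuousOn_const
  refine (h1.continuousAt (ho.mem_nhds hp)).congr ?_
  filter_upwards [ho.mem_nhds hp] with p hp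
  have hd : HasFDerivAt (Function.uncurry φ) (fderiv ℝ (Function.uncurry φ) p) p :=
    ((h.smooth.contDiffAt (ho.mem_nhds hp)).differentiableAt (by simp)).hasFDerivAt
  have hc : HasDerivAt (fun t : ℝ => ((p.1, t) : ℝ × ℝ)) (0, 1) p.2 :=
    (hasDerivAt_const p.2 p.1).prodMk (hasDerivAt_id p.2)
  have h2 : HasDerivAt (fun t : ℝ => φ p.1 t) (fderiv ℝ (Function.uncurry φ) p (0, 1)) p.2 :=
    HasFDerivAt.comp_hasDerivAt (f := fun t : ℝ => ((p.1, t) : ℝ × ℝ)) p.2 hd hc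
  exact h2.unique (h.deriv_a p.1 p.2 hp)

section cont

variable {X : Type*} [TopologicalSpace X] {r a b : X → ℝ} {z : X}

theorem lh_cont_phi {φ φr φa : ℝ → ℝ → ℝ} {lam H s : ℝ} {f : ℝ → ℝ}
    (h : Nice n k φ φr φa lam H s f) (hr : 0 < r z) (cr : ContinuousAt r z)
    (ca : ContinuousAt a z) : ContinuousAt (fun z => φ (r z) (a z)) z := by
  have ho : IsOpen {p : ℝ × ℝ | 0 < p.1} := isOpen_lt continuous_const continuous_fst
  have h1 : ContinuousAt (Function.uncurry φ) (r z, a z) :=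
    h.smooth.continuousOn.continuousAt (ho.mem_nhds hr)
  exact ContinuousAt.comp (g := Function.uncurry φ) (f := fun z => (r z, a z)) h1
    (cr.prodMk ca)

theorem lh_cont_kapN (hk : 0 ≤ k) {φ φr φa : ℝ → ℝ → ℝ} {lam H s : ℝ} {f : ℝ → ℝ}
    (h : Nice n k φ φr φa lam H s f) (m : ℕ) (hr : 0 < r z) (cr : ContinuousAt r z)
    (ca : ContinuousAt a z) (cb : ContinuousAt b z) :
    ContinuousAt (fun z => kapN k m φ φr φa (r z) (a z) (b z)) z := by
  have c1 := lh_cont_phi h hr cr ca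
  have c2 : ContinuousAt (fun z => φr (r z) (a z)) z :=
    ContinuousAt.comp (g := fun p : ℝ × ℝ => φr p.1 p.2) (f := fun z => (r z, a z))
      (lh_cont_r h hr) (cr.prodMk ca)
  have c3 : ContinuousAt (fun z => φa (r z) (a z)) z :=
    ContinuousAt.comp (g := fun p : ℝ × ℝ => φa p.1 p.2) (f := fun z => (r z, a z))
      (lh_cont_a h hr) (cr.prodMk ca)
  have c4 : ContinuousAt (fun z => cs k (r z)) z :=
    ContinuousAt.comp (g := cs k) (contDiff_cs k).continuous.continuousAt cr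
  have c5 : ContinuousAt (fun z => sn k (r z)) z :=
    ContinuousAt.comp (g := sn k) (contDiff_sn k).continuous.continuousAt cr
  have h5 : sn k (r z) ≠ 0 := (sn_pos hk hr).ne'
  have c6 : ContinuousAt (fun z => √((1 - a z ^ 2) * (1 - b z ^ 2))) z :=
    ((continuousAt_const.sub (ca.pow 2)).mul (continuousAt_const.sub (cb.pow 2))).sqrt
  unfold kapN
  exact ((c2.mul (continuousAt_const.sub (cb.pow 2))).add ((c1.mul (c4.div c5 h5)).mul
    (continuousAt_const.add (cb.pow 2)))).sub (((c3.abs.mul cb.abs).mul c6).div c5 h5)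

theorem lh_cont_NN (hk : 0 ≤ k) {φ φr φa : ℝ → ℝ → ℝ} {lam H s : ℝ} {f : ℝ → ℝ}
    (h : Nice n k φ φr φa lam H s f) (m : ℕ) (lam' : ℝ) (hr : 0 < r z) (cr : ContinuousAt r z)
    (ca : ContinuousAt a z) (cb : ContinuousAt b z) :
    ContinuousAt (fun z => NN k m φ φr φa lam' (r z) (a z) (b z)) z := by
  unfold NN
  exact continuousAt_const.add (((lh_cont_kapN hk h m hr cr ca cb).add
    (lh_cont_kapN hk h m hr cr cb ca)).div_const 2)

theorem lh_cont_KN (hk : 0 ≤ k) {φ φr φa : ℝ → ℝ → ℝ} {lam H s : ℝ} {f : ℝ → ℝ}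
    (h : Nice n k φ φr φa lam H s f) (m : ℕ) (lam' H' : ℝ) (hr : 0 < r z)
    (cr : ContinuousAt r z) (ca : ContinuousAt a z) (cb : ContinuousAt b z) :
    ContinuousAt (fun z => KN k m φ φr φa lam' H' (r z) (a z) (b z)) z := by
  unfold KN
  exact (lh_cont_NN hk h m lam' hr cr ca cb).sub (continuousAt_const.mul
    (((lh_cont_phi h hr cr ca).mul cb).add ((lh_cont_phi h hr cr cb).mul ca)))

end cont

theorem lh_cont_rtau (hk : 0 ≤ k) {X : Type*} [TopologicalSpace X] {x v : X → E n} {z : X}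
    (hv : v z ≠ 0) (cx : ContinuousAt x z) (cv : ContinuousAt v z) :
    ContinuousAt (fun z => rtau G k (x z) (v z)) z := by
  have h1 : ContinuousAt (fun z => fderiv ℝ (fun u => Real.log (G.T (x z) u).det) (v z) (v z))
      z :=
    ContinuousAt.comp (g := fun z : E n × E n =>
      fderiv ℝ (fun u => Real.log (G.T z.1 u).det) z.2 z.2) (f := fun z => (x z, v z))
      (kxr_cont_fderiv G).continuousAt (cx.prodMk cv)
  have c4 : ContinuousAt (fun z => cs k ‖v z‖) z :=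
    ContinuousAt.comp (g := cs k) (contDiff_cs k).continuous.continuousAt cv.norm
  have c5 : ContinuousAt (fun z => sn k ‖v z‖) z :=
    ContinuousAt.comp (g := sn k) (contDiff_sn k).continuous.continuousAt cv.norm
  have h5 : sn k ‖v z‖ ≠ 0 := (sn_pos hk (norm_pos_iff.2 hv)).ne'
  unfold rtau
  exact h1.add (continuousAt_const.mul (continuousAt_const.sub ((cv.norm.mul c4).div c5 h5)))

/-! ### Strict inequality at the pair -/

theorem lh_bonus (hk : 0 ≤ k) (hG : Curv G k) {φ φr φa : ℝ → ℝ → ℝ}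
    {lam H s : ℝ} {f : ℝ → ℝ} (h : Nice n k φ φr φa lam H s f) {p q : E n} (hpq : p ≠ q)
    {a b : ℝ} (ha : 0 ≤ a) (ha1 : a ≤ 1) (hb : 0 ≤ b) (hb1 : b ≤ 1) :
    a * b * √(φ ‖G.lg p q‖ a * φ ‖G.lg p q‖ b) / sn k ‖G.lg p q‖ *
      (|(G.T p (G.lg p q)).det| * ‖G.lg p q‖ ^ (n - 1) - sn k ‖G.lg p q‖ ^ (n - 1)) ≤
      lhB G k φ p q ‖G.lg p q‖ a b * (|(G.T p (G.lg p q)).det| * ‖G.lg p q‖ ^ (n - 1)) := by
  have hr : 0 < ‖G.lg p q‖ := rgp_lg_pos G hpq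
  have hv : G.lg p q ≠ 0 := norm_pos_iff.1 hr
  have hφa := h.nonneg _ a hr ha ha1
  have hφb := h.nonneg _ b hr hb hb1
  have hb2 := hG.bonus p (G.lg p q) (a * √(φ ‖G.lg p q‖ b)) (b * √(φ ‖G.lg p q‖ a)) hv
    (mul_nonneg ha (Real.sqrt_nonneg _)) (mul_nonneg hb (Real.sqrt_nonneg _))
  rw [G.ex_lg, mul_pow, mul_pow, Real.sq_sqrt hφa, Real.sq_sqrt hφb] at hb2
  rw [Real.sqrt_mul hφa]
  have hJ : 0 < |(G.T p (G.lg p q)).det| := abs_pos.2 (G.det_T_ne _ _)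
  have hsn : 0 < sn k ‖G.lg p q‖ := sn_pos hk hr
  unfold lhB
  generalize ‖G.lg p q‖ = r at *
  generalize |(G.T p (G.lg p q)).det| = J at *
  generalize √(φ r a) = A at *
  generalize √(φ r b) = B at *
  generalize rtau G k p (G.lg p q) = t1 at *
  generalize rtau G k q (G.lg q p) = t2 at *
  have h3 := mul_le_mul_of_nonneg_right hb2
    (by positivity : 0 ≤ J * r ^ (n - 1) / (2 * r))
  refine le_trans (le_of_eq ?_) (h3.trans (le_of_eq ?_))
  · rw [div_pow]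
    field_simp
  · field_simp

theorem lh_strict (hn : 2 ≤ n) (hk : 0 < k) (hG : Curv G k) {R : ℝ} (C : CertHR n k R)
    {p q : E n} (hpq : p ≠ q) {a b : ℝ} (ha : 0 ≤ a) (ha1 : a ≤ 1) (hb : 0 ≤ b) (hb1 : b ≤ 1)
    (hcon : ¬ (sn k (‖G.lg p q‖ / 2) * cs k R = a * (cs k (‖G.lg p q‖ / 2) * sn k R) ∧
      sn k (‖G.lg p q‖ / 2) * cs k R = b * (cs k (‖G.lg p q‖ / 2) * sn k R) ∧
      |(G.T p (G.lg p q)).det| * ‖G.lg p q‖ ^ (n - 1) = sn k ‖G.lg p q‖ ^ (n - 1))) :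
    a * b * (C.s * ‖G.lg p q‖ - (C.f a + C.f b) / 2) <
      (KN k (n - 1) C.φ C.φr C.φa C.lam (H0 n k R) ‖G.lg p q‖ a b +
        lhB G k C.φ p q ‖G.lg p q‖ a b) *
        (|(G.T p (G.lg p q)).det| * ‖G.lg p q‖ ^ (n - 1)) := by
  have hr : 0 < ‖G.lg p q‖ := rgp_lg_pos G hpq
  have hv : G.lg p q ≠ 0 := norm_pos_iff.1 hr
  have hv' : G.lg q p ≠ 0 := norm_pos_iff.1 (rgp_lg_pos G hpq.symm)
  have hw : sn k ‖G.lg p q‖ ^ (n - 1) ≤ |(G.T p (G.lg p q)).det| * ‖G.lg p q‖ ^ (n - 1) := by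
    rw [mul_comm]
    exact sn_le_J (by omega) hk.le hG hv
  have hJ : 0 < |(G.T p (G.lg p q)).det| := abs_pos.2 (G.det_T_ne _ _)
  have hj : 0 < |(G.T p (G.lg p q)).det| * ‖G.lg p q‖ ^ (n - 1) := by positivity
  have hφa := C.nice.nonneg _ a hr ha ha1
  have hφb := C.nice.nonneg _ b hr hb hb1
  have hB : 0 ≤ lhB G k C.φ p q ‖G.lg p q‖ a b := by
    unfold lhB
    have e3 := rtau_nonneg hG hv p
    have e4 := rtau_nonneg hG hv' q
    positivity
  have hbon := lh_bonus G hk.le hG C.nice hpq ha ha1 hb hb1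
  rcases ha.eq_or_lt with ha0 | ha0
  · subst ha0
    have h1 := C.c1s ‖G.lg p q‖ b 0 hr hb hb1 le_rfl zero_le_one
    rw [lh_NN_symm] at h1
    have h2 : 0 < KN k (n - 1) C.φ C.φr C.φa C.lam (H0 n k R) ‖G.lg p q‖ 0 b := by
      unfold KN
      linarith
    have h3 : 0 < (KN k (n - 1) C.φ C.φr C.φa C.lam (H0 n k R) ‖G.lg p q‖ 0 b +
        lhB G k C.φ p q ‖G.lg p q‖ 0 b) *
        (|(G.T p (G.lg p q)).det| * ‖G.lg p q‖ ^ (n - 1)) := by positivity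
    rw [zero_mul, zero_mul]
    exact h3
  rcases hb.eq_or_lt with hb0 | hb0
  · subst hb0
    have h1 := C.c1s ‖G.lg p q‖ a 0 hr ha ha1 le_rfl zero_le_one
    have h2 : 0 < KN k (n - 1) C.φ C.φr C.φa C.lam (H0 n k R) ‖G.lg p q‖ a 0 := by
      unfold KN
      linarith
    have h3 : 0 < (KN k (n - 1) C.φ C.φr C.φa C.lam (H0 n k R) ‖G.lg p q‖ a 0 +
        lhB G k C.φ p q ‖G.lg p q‖ a 0) *
        (|(G.T p (G.lg p q)).det| * ‖G.lg p q‖ ^ (n - 1)) := by positivity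
    rw [mul_zero, zero_mul]
    exact h3
  have h7 := C.c7s ‖G.lg p q‖ a b hr ha0 ha1 hb0 hb1
  have h6 := C.nice.c6 ‖G.lg p q‖ a b hr ha ha1 hb hb1
  have h6s := C.c6s ‖G.lg p q‖ a b hr ha0 ha1 hb0 hb1
  generalize KN k (n - 1) C.φ C.φr C.φa C.lam (H0 n k R) ‖G.lg p q‖ a b = K at *
  generalize lhB G k C.φ p q ‖G.lg p q‖ a b = B at *
  generalize a * b * √(C.φ ‖G.lg p q‖ a * C.φ ‖G.lg p q‖ b) / sn k ‖G.lg p q‖ = κ at *
  generalize sn k ‖G.lg p q‖ ^ (n - 1) = w at *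
  generalize |(G.T p (G.lg p q)).det| * ‖G.lg p q‖ ^ (n - 1) = j at *
  generalize a * b * (C.s * ‖G.lg p q‖ - (C.f a + C.f b) / 2) = L at *
  have h8 : K * w + (K + κ) * (j - w) ≤ (K + B) * j := by nlinarith
  rcases hw.eq_or_lt with hw0 | hw0
  · have h9 : L ≠ K * w := by
      intro h9
      obtain ⟨e1, e2⟩ := h6s h9.symm
      exact hcon ⟨e1, e2, hw0.symm⟩
    have h10 : L < K * w := lt_of_le_of_ne h6 h9
    rw [hw0, sub_self, mul_zero, add_zero] at h8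
    rw [hw0] at h10
    linarith
  · have h11 : 0 < (K + κ) * (j - w) := mul_pos h7 (sub_pos.2 hw0)
    linarith

/-- PROOF. Put `r = ‖lg p q‖ > 0`, `a = rgpA G N p q`, `b = rgpA G N q p` (`|a|, |b| ≤ 1`,
`rgp_abs_le`), `j = |det T p (lg p q)| r^(n-1) ≥ sn r^(n-1) =: w` (`sn_le_jac` or mono_sn). For
`0 < δ ≤ r₀ := r/2` and points near `(p, q)` one has `‖lg x y‖ > δ`, there `ph (nicePhi δ φ) = φ`
(`nice_ph`, `niceChi_one`), `NH (nicePhi δ φ) (lam + ε) = NN + ε` (`nice_NH`), hence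
`kexs (lam + ε) = (KN + bonus) + ε`, bonus = `(φ(r,a)/r b² rtau p (lg p q) + φ(r,b)/r a² rtau q (lg q p))/2`
and all quantities are continuous in `(x, y)` near `(p, q)`, uniformly in `ε ≥ 0` (ε only helps:
NH, kexs increase by ε, f increases by ε).
g1, g2: `c1s` for `|a|, |b|` (`nice_NN_abs`, `nice_abs`; `max a 0 ≤ |a|`), symmetry of `NN`.
g6: if `a < 0` or `b < 0` it is void near `(p,q)`. If `a = 0` or `b = 0` the left side is `0` at
`(p,q)` and `KN + bonus ≥ KN > 0` by `c1s` (`KN(r,0,b) = NN(r,b,0)... - H/2 φ(r,0) b`), `j > 0`. If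
`a, b > 0`: as in `kexs_ge` (`bonus_line`) `(KN + bonus) j ≥ KN w + (KN + ab√(φφ)/sn)(j - w)`. If `j > w`
use `c7s` and c6; if `j = w` then `(r,a,b)` is not on the curve of the model ball (otherwise
`ModelPair`) and use `c6s` (strict inequality in c6). -/
theorem local_gap (hn : 2 ≤ n) (hk : 0 < k) (hG : Curv G k) {R : ℝ} (hR : 0 < R)
    (C : CertHR n k R) {N : E n → E n} {p q : E n} (hpq : p ≠ q) (hNp : ContinuousAt N p)
    (hNq : ContinuousAt N q) (h1p : ‖N p‖ = 1) (h1q : ‖N q‖ = 1)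
    (hcon : ¬ModelPair G k R N p q) :
    ∃ c > 0, ∃ r₀ > 0, ∀ᶠ z in 𝓝 (p, q), ‖N z.1‖ = 1 → ‖N z.2‖ = 1 →
      ∀ ε δ : ℝ, 0 ≤ ε → 0 < δ → δ ≤ r₀ →
        Gap G k (nicePhi δ C.φ) (C.lam + ε) (H0 n k R) C.s (fun a => C.f a + ε) c z.1 z.2
          (rgpA G N z.1 z.2) (rgpA G N z.2 z.1) := by
  have hr : 0 < ‖G.lg p q‖ := rgp_lg_pos G hpq
  have hv : G.lg p q ≠ 0 := norm_pos_iff.1 hr
  have hv' : G.lg q p ≠ 0 := norm_pos_iff.1 (rgp_lg_pos G hpq.symm)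
  have hH := H0_nonneg hn hk.le hR
  -- continuity
  have cl : ContinuousAt (fun z : E n × E n => G.lg z.1 z.2) (p, q) :=
    G.lg_smooth.continuous.continuousAt
  have cl' : ContinuousAt (fun z : E n × E n => G.lg z.2 z.1) (p, q) :=
    (G.lg_smooth.continuous.comp continuous_swap).continuousAt
  have cr : ContinuousAt (fun z : E n × E n => ‖G.lg z.1 z.2‖) (p, q) := cl.norm
  have ca := rgp_cont_A G hpq hNp
  have cb := rgp_cont_A' G hpq hNq
  have cJ := rgp_cont_J G p q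
  have cj : ContinuousAt (fun z : E n × E n =>
      |(G.T z.1 (G.lg z.1 z.2)).det| * ‖G.lg z.1 z.2‖ ^ (n - 1)) (p, q) := cJ.mul (cr.pow _)
  have cNN := lh_cont_NN hk.le C.nice (n - 1) C.lam (z := (p, q)) hr cr ca cb
  have cKN := lh_cont_KN hk.le C.nice (n - 1) C.lam (H0 n k R) (z := (p, q)) hr cr ca cb
  have cφa := lh_cont_phi C.nice (z := (p, q)) hr cr ca
  have cφb := lh_cont_phi C.nice (z := (p, q)) hr cr cb
  have ct1 := lh_cont_rtau G hk.le (z := (p, q)) (x := fun z : E n × E n => z.1)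
    (v := fun z => G.lg z.1 z.2) hv continuousAt_fst cl
  have ct2 := lh_cont_rtau G hk.le (z := (p, q)) (x := fun z : E n × E n => z.2)
    (v := fun z => G.lg z.2 z.1) hv' continuousAt_snd cl'
  have cB : ContinuousAt (fun z : E n × E n => lhB G k C.φ z.1 z.2 ‖G.lg z.1 z.2‖
      (rgpA G N z.1 z.2) (rgpA G N z.2 z.1)) (p, q) := by
    unfold lhB
    exact (((((cφa.div cr hr.ne').mul (cb.pow 2)).mul ct1).add
      (((cφb.div cr hr.ne').mul (ca.pow 2)).mul ct2))).div_const 2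
  have ha := rgp_abs_le G q h1p
  have hb := rgp_abs_le G p h1q
  have hφa0 := lh_phi_nonneg C.nice hr ha
  have hφb0 := lh_phi_nonneg C.nice hr hb
  -- first two gaps at the point
  have g1 : H0 n k R / 2 * (C.φ ‖G.lg p q‖ (rgpA G N q p) * max (rgpA G N p q) 0) <
      NN k (n - 1) C.φ C.φr C.φa C.lam ‖G.lg p q‖ (rgpA G N p q) (rgpA G N q p) := by
    have h1 := C.c1s ‖G.lg p q‖ |rgpA G N p q| |rgpA G N q p| hr (abs_nonneg _) ha
      (abs_nonneg _) hb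
    rw [nice_NN_abs C.nice.deriv_r C.nice.deriv_a C.nice.even hr, nice_abs C.nice.even hr] at h1
    refine lt_of_le_of_lt ?_ h1
    have h2 : max (rgpA G N p q) 0 ≤ |rgpA G N p q| := max_le (le_abs_self _) (abs_nonneg _)
    gcongr
  have g2 : H0 n k R / 2 * (C.φ ‖G.lg p q‖ (rgpA G N p q) * max (rgpA G N q p) 0) <
      NN k (n - 1) C.φ C.φr C.φa C.lam ‖G.lg p q‖ (rgpA G N p q) (rgpA G N q p) := by
    have h1 := C.c1s ‖G.lg p q‖ |rgpA G N q p| |rgpA G N p q| hr (abs_nonneg _) hb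
      (abs_nonneg _) ha
    rw [nice_NN_abs C.nice.deriv_r C.nice.deriv_a C.nice.even hr, nice_abs C.nice.even hr,
      lh_NN_symm] at h1
    refine lt_of_le_of_lt ?_ h1
    have h2 : max (rgpA G N q p) 0 ≤ |rgpA G N q p| := max_le (le_abs_self _) (abs_nonneg _)
    gcongr
  obtain ⟨c1, hc1, hg1⟩ : ∃ c > 0, c + H0 n k R / 2 *
      (C.φ ‖G.lg p q‖ (rgpA G N q p) * max (rgpA G N p q) 0) <
      NN k (n - 1) C.φ C.φr C.φa C.lam ‖G.lg p q‖ (rgpA G N p q) (rgpA G N q p) := by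
    refine ⟨(NN k (n - 1) C.φ C.φr C.φa C.lam ‖G.lg p q‖ (rgpA G N p q) (rgpA G N q p) -
      H0 n k R / 2 * (C.φ ‖G.lg p q‖ (rgpA G N q p) * max (rgpA G N p q) 0)) / 2, ?_, ?_⟩
    · linarith
    · linarith
  obtain ⟨c2, hc2, hg2⟩ : ∃ c > 0, c + H0 n k R / 2 *
      (C.φ ‖G.lg p q‖ (rgpA G N p q) * max (rgpA G N q p) 0) <
      NN k (n - 1) C.φ C.φr C.φa C.lam ‖G.lg p q‖ (rgpA G N p q) (rgpA G N q p) := by
    refine ⟨(NN k (n - 1) C.φ C.φr C.φa C.lam ‖G.lg p q‖ (rgpA G N p q) (rgpA G N q p) -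
      H0 n k R / 2 * (C.φ ‖G.lg p q‖ (rgpA G N p q) * max (rgpA G N q p) 0)) / 2, ?_, ?_⟩
    · linarith
    · linarith
  have ev1 : ∀ᶠ z : E n × E n in 𝓝 (p, q), c1 + H0 n k R / 2 *
      (C.φ ‖G.lg z.1 z.2‖ (rgpA G N z.2 z.1) * max (rgpA G N z.1 z.2) 0) <
      NN k (n - 1) C.φ C.φr C.φa C.lam ‖G.lg z.1 z.2‖ (rgpA G N z.1 z.2)
        (rgpA G N z.2 z.1) :=
    ContinuousAt.eventually_lt (continuousAt_const.add (continuousAt_const.mul
      (cφb.mul (ca.max continuousAt_const)))) cNN hg1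
  have ev2 : ∀ᶠ z : E n × E n in 𝓝 (p, q), c2 + H0 n k R / 2 *
      (C.φ ‖G.lg z.1 z.2‖ (rgpA G N z.1 z.2) * max (rgpA G N z.2 z.1) 0) <
      NN k (n - 1) C.φ C.φr C.φa C.lam ‖G.lg z.1 z.2‖ (rgpA G N z.1 z.2)
        (rgpA G N z.2 z.1) :=
    ContinuousAt.eventually_lt (continuousAt_const.add (continuousAt_const.mul
      (cφa.mul (cb.max continuousAt_const)))) cNN hg2
  -- the third gap
  obtain ⟨c3, hc3, ev3⟩ : ∃ c > 0, ∀ᶠ z : E n × E n in 𝓝 (p, q),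
      0 ≤ rgpA G N z.1 z.2 → 0 ≤ rgpA G N z.2 z.1 →
      rgpA G N z.1 z.2 * rgpA G N z.2 z.1 * (C.s * ‖G.lg z.1 z.2‖ -
        (C.f (rgpA G N z.1 z.2) + C.f (rgpA G N z.2 z.1)) / 2) ≤
      (KN k (n - 1) C.φ C.φr C.φa C.lam (H0 n k R) ‖G.lg z.1 z.2‖ (rgpA G N z.1 z.2)
        (rgpA G N z.2 z.1) + lhB G k C.φ z.1 z.2 ‖G.lg z.1 z.2‖ (rgpA G N z.1 z.2)
        (rgpA G N z.2 z.1) - c) * (|(G.T z.1 (G.lg z.1 z.2)).det| *
          ‖G.lg z.1 z.2‖ ^ (n - 1)) := by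
    by_cases ha0 : rgpA G N p q < 0
    · refine ⟨1, one_pos, ?_⟩
      filter_upwards [ContinuousAt.eventually_lt ca continuousAt_const ha0] with z hz h0
      exact absurd h0 (not_le.2 hz)
    by_cases hb0 : rgpA G N q p < 0
    · refine ⟨1, one_pos, ?_⟩
      filter_upwards [ContinuousAt.eventually_lt cb continuousAt_const hb0] with z hz _ h0
      exact absurd h0 (not_le.2 hz)
    rw [not_lt] at ha0 hb0
    have hst := lh_strict G hn hk hG C hpq ha0 (abs_le.1 ha).2 hb0 (abs_le.1 hb).2 (by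
      intro hc
      apply hcon
      have haE : inner ℝ (G.lg p q) (N p) = rgpA G N p q * ‖G.lg p q‖ := by
        unfold rgpA
        field_simp
      have hbE : inner ℝ (G.lg q p) (N q) = rgpA G N q p * ‖G.lg p q‖ := by
        unfold rgpA
        rw [G.norm_lg_comm q p]
        field_simp
      refine ⟨?_, ?_, hc.2.2⟩
      · rw [hc.1, haE]
        ring
      · rw [hc.2.1, hbE]
        ring)
    have hJ : 0 < |(G.T p (G.lg p q)).det| := abs_pos.2 (G.det_T_ne _ _)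
    have hj : 0 < |(G.T p (G.lg p q)).det| * ‖G.lg p q‖ ^ (n - 1) := by positivity
    obtain ⟨c, hc, hlt⟩ : ∃ c > 0, rgpA G N p q * rgpA G N q p * (C.s * ‖G.lg p q‖ -
        (C.f (rgpA G N p q) + C.f (rgpA G N q p)) / 2) <
      (KN k (n - 1) C.φ C.φr C.φa C.lam (H0 n k R) ‖G.lg p q‖ (rgpA G N p q)
        (rgpA G N q p) + lhB G k C.φ p q ‖G.lg p q‖ (rgpA G N p q)
        (rgpA G N q p) - c) * (|(G.T p (G.lg p q)).det| * ‖G.lg p q‖ ^ (n - 1)) := by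
      generalize rgpA G N p q * rgpA G N q p * (C.s * ‖G.lg p q‖ -
        (C.f (rgpA G N p q) + C.f (rgpA G N q p)) / 2) = L at *
      generalize (KN k (n - 1) C.φ C.φr C.φa C.lam (H0 n k R) ‖G.lg p q‖ (rgpA G N p q)
        (rgpA G N q p) + lhB G k C.φ p q ‖G.lg p q‖ (rgpA G N p q) (rgpA G N q p)) = K at *
      generalize |(G.T p (G.lg p q)).det| * ‖G.lg p q‖ ^ (n - 1) = j at *
      refine ⟨(K * j - L) / (2 * j), by
        have : 0 < K * j - L := by linarith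
        positivity, ?_⟩
      have e : (K - (K * j - L) / (2 * j)) * j = K * j - (K * j - L) / 2 := by
        field_simp
      rw [e]
      linarith
    refine ⟨c, hc, ?_⟩
    have cf1 : ContinuousAt (fun z : E n × E n => C.f (rgpA G N z.1 z.2)) (p, q) :=
      ContinuousAt.comp (g := C.f) (f := fun z : E n × E n => rgpA G N z.1 z.2)
        C.f_cont.continuousAt ca
    have cf2 : ContinuousAt (fun z : E n × E n => C.f (rgpA G N z.2 z.1)) (p, q) :=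
      ContinuousAt.comp (g := C.f) (f := fun z : E n × E n => rgpA G N z.2 z.1)
        C.f_cont.continuousAt cb
    have cL := (ca.mul cb).mul ((continuousAt_const (y := C.s)).mul cr |>.sub
      ((cf1.add cf2).div_const 2))
    have ev := ContinuousAt.eventually_lt cL (((cKN.add cB).sub
      (continuousAt_const (y := c))).mul cj) hlt
    filter_upwards [ev] with z hz _ _
    exact hz.le
  have ev0 : ∀ᶠ z : E n × E n in 𝓝 (p, q), ‖G.lg p q‖ / 2 < ‖G.lg z.1 z.2‖ :=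
    ContinuousAt.eventually_lt continuousAt_const cr (by linarith)
  refine ⟨min c1 (min c2 c3), by positivity, ‖G.lg p q‖ / 2, by positivity, ?_⟩
  filter_upwards [ev0, ev1, ev2, ev3] with z h0 h1 h2 h3 hN1 hN2 ε δ hε hδ hδr
  have hm1 : min c1 (min c2 c3) ≤ c1 := min_le_left _ _
  have hm2 : min c1 (min c2 c3) ≤ c2 := (min_le_right _ _).trans (min_le_left _ _)
  have hm3 : min c1 (min c2 c3) ≤ c3 := (min_le_right _ _).trans (min_le_right _ _)
  have hδz : δ < ‖G.lg z.1 z.2‖ := lt_of_le_of_lt hδr h0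
  have hrz : 0 < ‖G.lg z.1 z.2‖ := hδ.trans hδz
  have hph : ∀ a : ℝ, ph (nicePhi δ C.φ) ‖G.lg z.1 z.2‖ a = C.φ ‖G.lg z.1 z.2‖ a := by
    intro a
    rw [nice_ph C.φ hrz a, niceChi_one hδ hδz.le, one_mul]
  refine ⟨?_, ?_, ?_⟩
  · rw [lh_NH hδ hk.le C.nice ε hδz, hph]
    linarith
  · rw [lh_NH hδ hk.le C.nice ε hδz, hph]
    linarith
  · intro ha0 hb0
    rw [lh_kexs G hδ hk.le C.nice ε hδz]
    have h4 := h3 ha0 hb0
    have hjz : 0 ≤ |(G.T z.1 (G.lg z.1 z.2)).det| * ‖G.lg z.1 z.2‖ ^ (n - 1) := by positivity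
    refine le_trans ?_ (h4.trans (mul_le_mul_of_nonneg_right (by linarith) hjz))
    have h5 : 0 ≤ rgpA G N z.1 z.2 * rgpA G N z.2 z.1 * ε := by positivity
    have e : rgpA G N z.1 z.2 * rgpA G N z.2 z.1 * (C.s * ‖G.lg z.1 z.2‖ -
        (C.f (rgpA G N z.1 z.2) + ε + (C.f (rgpA G N z.2 z.1) + ε)) / 2) =
      rgpA G N z.1 z.2 * rgpA G N z.2 z.1 * (C.s * ‖G.lg z.1 z.2‖ -
        (C.f (rgpA G N z.1 z.2) + C.f (rgpA G N z.2 z.1)) / 2) -
      rgpA G N z.1 z.2 * rgpA G N z.2 z.1 * ε := by ring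
    rw [e]
    linarith

end Vale.Agent.P219.TPH
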