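import Vale.Agent.P219.TPH.FinalH

/-! # First variation at near-minimizers, curvature `≤ -k²` -/

open MeasureTheory Set Metric Filter Topology
open scoped ENNReal ContDiff

namespace Vale.Agent.P219.TPH

open Vale.Agent.P219.TP

variable {n : ℕ} (G : Geo n) {k : ℝ}

/-- PROOF: `exists_contract_H`; choose the constants `t`, `η` as in `deficit_nonneg` (FinalH.lean)
and apply `descent_H` with `J = 0`, `d₁ = e`, `A = AR n k R + 1`, `Vs = VR n k R`, `H = H0 n k R`: the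
conclusion `G.per g' - I (V1 G g') < 0` contradicts `hdef`, so at every `p` with `D g p ≠ 0` the first
variation `J_p = ∫ kapE |D g| - H ∫ th ... ` is `< e`. Then integrate over `p` (`pairX_fubini`,
`inner_kex`: `∫_q kex |D g| = lam per g + J_p`). Compare `TP.near_min` (TPR/NearMin.lean).
(`per g ≤ AR + 1` for near-minimizers: `per g < I (V1 g) + η` and `I` is continuous at `VR n k R`.) -/
theorem near_min_H (hn : 2 ≤ n) (hk : 0 ≤ k) (hG : Curv G k) {I : ℝ → ℝ}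
    (hImono : MonotoneOn I (Ici 0)) (hIcont : ContinuousOn I (Ici 0))
    (hIR : ∀ R, 0 ≤ R → I (VR n k R) = AR n k R)
    (hId : ∀ R, 0 < R → HasStrictDerivAt I (H0 n k R) (VR n k R)) (o : E n) {ρ : ℝ} (hρ : 0 < ρ)
    (hdef : ∀ g, G.Cls o ρ g → 0 ≤ G.per g - I (V1 G g))
    {Φ : ℝ × ℝ → ℝ} {δ : ℝ} (hδ : 0 < δ) (hΦ : ContDiffOn ℝ ∞ Φ {p | -δ < p.1})
    (hΦ0 : ∀ r a : ℝ, 0 ≤ r → |a| ≤ 1 → 0 ≤ Φ (r ^ 2, r * a)) (lam : ℝ) {R : ℝ} (hR : 0 < R)
    {e : ℝ} (he : 0 < e) :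
    ∃ η > 0, ∀ g, G.Cls o ρ g → G.per g - I (V1 G g) < η →
      G.vol.real {x | 0 < g x ∧ g x < 1} < η → |V1 G g - VR n k R| < η →
      pairX G (kex G k Φ lam (H0 n k R)) g ≤ (lam * G.per g + e) * G.per g := by
  have hAR := AR_pos (n := n) (k := k) (by omega) hk hR
  obtain ⟨A, hA⟩ : ∃ A, A = AR n k R + 1 := ⟨_, rfl⟩
  have hApos : 0 < A := by rw [hA]; linarith
  obtain ⟨Vs, hVs⟩ : ∃ Vs, Vs = VR n k R := ⟨_, rfl⟩
  have hVsp : 0 < Vs := by
    have h1 := (VR_strictMonoOn (n := n) (k := k) (by omega) hk) (mem_Ici.2 le_rfl)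
      (mem_Ici.2 hR.le) hR
    rw [VR_zero] at h1
    rw [hVs]
    exact h1
  obtain ⟨H, hHdef⟩ : ∃ H, H = H0 n k R := ⟨_, rfl⟩
  have hH : 0 ≤ H := hHdef ▸ H0_nonneg hn hk hR
  obtain ⟨Cc, t₀, hCc, ht₀, hcon⟩ := exists_contract_H G hn hk hG o hρ hδ hΦ hΦ0
  obtain ⟨M, hM, hMb⟩ := th_bounds (n := n) hδ hΦ 1 one_pos (2 * ρ)
  obtain ⟨B, hB⟩ : ∃ B, B = M * (2 * ρ) * A + 2 * Cc := ⟨_, rfl⟩
  have hB0 : 0 ≤ B := by rw [hB]; positivity
  obtain ⟨c, hcp, hcs⟩ := exists_small hB0 (b := e / 8) (by positivity)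
  have hcs' := hcs c hcp.le le_rfl
  obtain ⟨δ₁, hδ₁, hstrict⟩ : ∃ δ₁ > 0, ∀ V V' : ℝ, |V - Vs| < δ₁ → |V' - Vs| < δ₁ →
      |I V' - I V - (V' - V) * H| ≤ c * |V' - V| := by
    have h1 := (hId R hR).isLittleO.def hcp
    rw [← hVs] at h1
    obtain ⟨δ₁, hδ₁, h2⟩ := Metric.eventually_nhds_iff.1 h1
    refine ⟨δ₁, hδ₁, fun V V' hV hV' => ?_⟩
    have h3 := @h2 (V', V) (by
      rw [Prod.dist_eq, Real.dist_eq, Real.dist_eq]
      exact max_lt hV' hV)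
    rw [hHdef]
    simpa [Real.norm_eq_abs, smul_eq_mul] using h3
  obtain ⟨t₁, ht₁, ht₁'⟩ := exists_small hB0 (b := min δ₁ Vs / 4) (by positivity)
  obtain ⟨t₂, ht₂, ht₂'⟩ := exists_small (a := Cc * A + H * Cc) (by positivity)
    (b := e / 8) (by positivity)
  obtain ⟨t, ht⟩ : ∃ t : ℝ, t = min (min t₀ 1) (min t₁ t₂) := ⟨_, rfl⟩
  have htp : 0 < t := by rw [ht]; positivity
  have htt₀ : t ≤ t₀ := ht ▸ (min_le_left _ _).trans (min_le_left _ _)
  have ht1 : t ≤ 1 := ht ▸ (min_le_left _ _).trans (min_le_right _ _)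
  have htB := ht₁' t htp.le (ht ▸ (min_le_right _ _).trans (min_le_left _ _))
  have htK := ht₂' t htp.le (ht ▸ (min_le_right _ _).trans (min_le_right _ _))
  obtain ⟨η₂, hη₂, hη₂'⟩ := exists_small (a := H * Cc) (by positivity)
    (b := e / 8) (by positivity)
  obtain ⟨δ₂, hδ₂, hδ₂'⟩ := Metric.continuousOn_iff.1 hIcont Vs hVsp.le (1 / 2) (by norm_num)
  obtain ⟨η, hη⟩ : ∃ η : ℝ, η = min (min (1 / 2) η₂) (min (min δ₂ (min δ₁ Vs / 4))
    (t * e / 4)) := ⟨_, rfl⟩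
  have hηp : 0 < η := by rw [hη]; positivity
  have hη12 : η ≤ 1 / 2 := hη ▸ (min_le_left _ _).trans (min_le_left _ _)
  have hη1 : η ≤ 1 := hη12.trans (by norm_num)
  have hηK := hη₂' η hηp.le (hη ▸ (min_le_left _ _).trans (min_le_right _ _))
  have hηδ₂ : η ≤ δ₂ := hη ▸ (min_le_right _ _).trans ((min_le_left _ _).trans (min_le_left _ _))
  have hηδ₁ : η ≤ min δ₁ Vs / 4 :=
    hη ▸ (min_le_right _ _).trans ((min_le_left _ _).trans (min_le_right _ _))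
  have hηt : η ≤ t * e / 4 := hη ▸ (min_le_right _ _).trans (min_le_right _ _)
  refine ⟨η, hηp, fun g hg hgJ hglay hgV => ?_⟩
  rw [← hVs] at hgV
  have hVg0 : 0 ≤ V1 G g := measureReal_nonneg
  have hPA : G.per g ≤ A := by
    have h1 := hδ₂' (V1 G g) hVg0 (by rw [Real.dist_eq]; exact hgV.trans_le hηδ₂)
    rw [Real.dist_eq] at h1
    have h2 := (abs_lt.1 h1).2
    have h3 : I Vs = AR n k R := by rw [hVs]; exact hIR R hR.le
    rw [hA]
    linarith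
  have hpt : ∀ p, G.D g p ≠ 0 →
      (∫ x, kapE G k Φ (‖G.D g p‖⁻¹ • G.D g p) p x (G.ang g x p) * ‖G.D g x‖ ∂G.vol) -
        H * ∫ x, th Φ 1 (‖G.D g p‖⁻¹ • G.D g p) (G.lg p x) *
          inner ℝ (G.lg x p) (G.D g x) ∂G.vol ≤ e := by
    intro p hp
    by_contra hJp
    rw [not_le] at hJp
    obtain ⟨g', hg', hlt⟩ := descent_H (k := k) (J := 0) G hImono hρ hCc hM hApos hH hcp.le he hcon
      (fun ν v h1 h2 => (hMb ν v 1 h1 le_rfl le_rfl h2).1) (by rw [mul_comm, ← hB]; exact hcs')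
      hstrict htp htt₀ ht1 (by rw [← hB]; exact htB) htK hηp hη1 hηK hηδ₁ hηt hg
      (by rw [zero_add]; exact hgJ) hglay.le hgV hPA hp hJp.le
    exact absurd (hdef g' hg') (not_le.2 hlt)
  have hc := Cls.hasCompactSupport G hg
  obtain ⟨hi, hfub⟩ := pairX_fubini G hk hδ hΦ lam (H0 n k R) hg.smooth hc
  rw [hfub]
  have hDi := perc_D_integrable G hg
  have hX4 : (lam * G.per g + e) * G.per g = ∫ p, (lam * G.per g + e) * ‖G.D g p‖ ∂G.vol := by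
    rw [integral_const_mul]
    rfl
  rw [hX4]
  refine integral_mono hi (hDi.const_mul _) fun p => ?_
  by_cases hDp : G.D g p = 0
  · simp [hDp]
  · have h1 := hpt p hDp
    have h2 := inner_kex G hk hδ hΦ lam (H0 n k R) hg.smooth hc hDp
    rw [hHdef] at h1
    refine mul_le_mul_of_nonneg_right ?_ (norm_nonneg _)
    rw [h2]
    linarith

end Vale.Agent.P219.TPH
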