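import Vale.Agent.P219.TPHR.LocalH
import Vale.Agent.P219.TPHR.NearMinH

/-! # Equality case: conclusion for a pair of boundary points, curvature `≤ -k²` -/

open MeasureTheory Set Metric Filter Topology
open scoped ENNReal ContDiff

namespace Vale.Agent.P219.TPH

open Vale.Agent.P219.TP

variable {n : ℕ} (G : Geo n) {k : ℝ}

/-- Equality case. `h i` is a sequence of functions approximating the indicator function of a
domain with the volume and the boundary area of the model ball of radius `R`. PROOF: as `rig_pair`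
(TPR/RigPair.lean): suppose not; `local_gap`; neighbourhoods `U, V`, lower bounds `A, B` from `hlow`;
profile `I` from `exists_profile`, `deficit_nonneg`; for small `ε` and `δ` (`good_nicePhi`,
`s δ ≤ ε`) combine `two_point_gap` (`S = U ×ˢ V`, `F + ε sig n` via `sphere_F_eps`, `H0_nonneg`) and
`near_min_H`: `s sig V1 - (F + ε sig) per + c A B ≤ pairX ≤ ((lam + ε) per + e) per`; let `i → ∞`
(`V1 → VR`, `per → AR`): contradiction with `balance` for `ε, e` small. -/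
theorem rig_pair_H (hn : 2 ≤ n) (hk : 0 < k) (hG : Curv G k)
    (hC : ∀ R, 0 < R → Nonempty (CertH n k R)) {R : ℝ} (hR : 0 < R) (C : CertHR n k R)
    {o : E n} {ρ₀ : ℝ} (hρ₀ : 0 < ρ₀) {h : ℕ → E n → ℝ} (hcls : ∀ i, G.Cls o ρ₀ (h i))
    (hper : ∀ e > 0, ∀ᶠ i in atTop, G.per (h i) ≤ AR n k R + e)
    (hlay : ∀ e > 0, ∀ᶠ i in atTop, G.vol.real {x | 0 < h i x ∧ h i x < 1} < e)
    (hvol : Tendsto (fun i => V1 G (h i)) atTop (𝓝 (VR n k R)))
    {N : E n → E n} {p q : E n} (hpq : p ≠ q) (hNp : ContinuousAt N p) (hNq : ContinuousAt N q)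
    (hN : ∀ x ∈ ({p, q} : Set (E n)), ∀ᶠ y in 𝓝 x, ‖N y‖ = 1 ∧
      ∀ i, G.D (h i) y = ‖G.D (h i) y‖ • N y)
    (hlow : ∀ x ∈ ({p, q} : Set (E n)), ∀ U ∈ 𝓝 x, ∃ c > 0, ∀ᶠ i in atTop,
      c ≤ ∫ y in U, ‖G.D (h i) y‖ ∂G.vol) : ModelPair G k R N p q := by
  by_contra hcon
  have hp := hN p (by simp)
  have hq := hN q (by simp)
  obtain ⟨c, hc, r₀, hr₀, hloc⟩ := local_gap G hn hk hG hR C hpq hNp hNq hp.self_of_nhds.1
    hq.self_of_nhds.1 hcon
  rw [nhds_prod_eq] at hloc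
  obtain ⟨U₁, hU₁, V₁, hV₁, hUV⟩ := mem_prod_iff.1 hloc
  obtain ⟨U, hUsub, hUo, hpU⟩ := _root_.mem_nhds_iff.1 (inter_mem hU₁ hp)
  obtain ⟨V, hVsub, hVo, hqV⟩ := _root_.mem_nhds_iff.1 (inter_mem hV₁ hq)
  obtain ⟨A, hA, hAe⟩ := hlow p (by simp) U (hUo.mem_nhds hpU)
  obtain ⟨B, hB, hBe⟩ := hlow q (by simp) V (hVo.mem_nhds hqV)
  obtain ⟨I, hImono, hIcont, hI0, hIz, hIR, hId⟩ := exists_profile (n := n) (k := k) hn hk.le
  have hdef : ∀ g, G.Cls o ρ₀ g → 0 ≤ G.per g - I (V1 G g) := fun g hg =>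
    deficit_nonneg hn hk.le G hG hC hImono hIcont hI0 hIz hIR hId o hρ₀ hg
  have hsig : 0 < sig n := sig_pos (by omega)
  obtain ⟨A0, hA0⟩ : ∃ A0, A0 = AR n k R := ⟨_, rfl⟩
  have hA0p : 0 < A0 := by
    rw [hA0]
    have := sn_pos hk.le hR
    unfold AR
    positivity
  -- limits
  have hI1 : Tendsto (fun i => I (V1 G (h i))) atTop (𝓝 A0) := by
    have h1 := ((hId R hR).hasDerivAt.continuousAt.tendsto).comp hvol
    rw [hIR R hR.le, ← hA0] at h1
    exact h1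
  have hPlow : ∀ i, I (V1 G (h i)) ≤ G.per (h i) := fun i => by
    have := hdef (h i) (hcls i)
    linarith
  have hP : Tendsto (fun i => G.per (h i)) atTop (𝓝 A0) := by
    rw [tendsto_order]
    constructor
    · intro a ha
      filter_upwards [hI1.eventually_const_lt ha] with i h1
      exact h1.trans_le (hPlow i)
    · intro a ha
      filter_upwards [hper ((a - A0) / 2) (by linarith)] with i hi
      rw [← hA0] at hi
      linarith
  have hdef0 : Tendsto (fun i => G.per (h i) - I (V1 G (h i))) atTop (𝓝 0) := by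
    have h1 := hP.sub hI1
    rwa [sub_self] at h1
  -- constants
  obtain ⟨t, ht⟩ : ∃ t, t = c * (A * B) := ⟨_, rfl⟩
  have ht0 : 0 < t := by rw [ht]; positivity
  obtain ⟨ε, hε⟩ : ∃ ε, ε = t / (8 * (A0 ^ 2 + sig n * A0)) := ⟨_, rfl⟩
  obtain ⟨e, he⟩ : ∃ e, e = t / (4 * A0) := ⟨_, rfl⟩
  have hε0 : 0 < ε := by rw [hε]; positivity
  have he0 : 0 < e := by rw [he]; positivity
  have hs0 := C.s_nonneg
  obtain ⟨δ, hδd⟩ : ∃ δ, δ = min r₀ (ε / (C.s + 1)) := ⟨_, rfl⟩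
  have hδ0 : 0 < δ := by rw [hδd]; positivity
  have hδr : δ ≤ r₀ := hδd ▸ min_le_left _ _
  have hsδ : C.s * δ ≤ ε := by
    have h1 : δ ≤ ε / (C.s + 1) := hδd ▸ min_le_right _ _
    calc C.s * δ ≤ (C.s + 1) * (ε / (C.s + 1)) := by
          refine mul_le_mul (by linarith) h1 hδ0.le (by linarith)
      _ = ε := by field_simp
  have hH0 := H0_nonneg hn hk.le hR
  have hgood := good_nicePhi hn hk.le C.lam_pos.le hH0 hs0 C.f_nonneg C.nice hε0 hδ0 hsδ
  obtain ⟨δ', hδ', hΦs⟩ := hgood.smooth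
  obtain ⟨η, hη, hmin⟩ := near_min_H G hn hk.le hG hImono hIcont hIR hId o hρ₀ hdef hδ' hΦs
    hgood.nonneg (C.lam + ε) hR he0
  have hev : ∀ᶠ i in atTop, C.s * sig n * V1 G (h i) - (C.F + ε * sig n) * G.per (h i) + t ≤
      ((C.lam + ε) * G.per (h i) + e) * G.per (h i) := by
    have hvol' : ∀ᶠ i in atTop, |V1 G (h i) - VR n k R| < η := by
      have := Metric.tendsto_nhds.1 hvol η hη
      simpa [Real.dist_eq] using this
    filter_upwards [hAe, hBe, hdef0.eventually_lt_const hη, hlay η hη, hvol'] with i h1 h2 h3 h4 h5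
    have h6 := hmin (h i) (hcls i) h3 h4 h5
    have h7 := two_point_gap G hn hk.le hG hgood hH0 hs0 (C.f_cont.add continuous_const)
      (fun a ha => add_nonneg (C.f_nonneg a ha) hε0.le)
      (fun e' he' => sphere_F_eps hε0.le C.f_cont he' (C.hF e' he')) hρ₀ (hcls i) (c := c) hc.le
      (S := U ×ˢ V) (hUo.measurableSet.prod hVo.measurableSet) ?_
    · have h8 : ∫ z in U ×ˢ V, ‖G.D (h i) z.1‖ * ‖G.D (h i) z.2‖ ∂(G.vol.prod G.vol) =
          (∫ y in U, ‖G.D (h i) y‖ ∂G.vol) * ∫ y in V, ‖G.D (h i) y‖ ∂G.vol :=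
        setIntegral_prod_mul (fun y => ‖G.D (h i) y‖) (fun y => ‖G.D (h i) y‖) U V
      rw [h8] at h7
      have h9 : A * B ≤ (∫ y in U, ‖G.D (h i) y‖ ∂G.vol) * ∫ y in V, ‖G.D (h i) y‖ ∂G.vol := by
        have := hA.le.trans h1
        gcongr
      have h10 : t ≤ c * ((∫ y in U, ‖G.D (h i) y‖ ∂G.vol) *
          ∫ y in V, ‖G.D (h i) y‖ ∂G.vol) := by rw [ht]; gcongr
      linarith
    · rintro x y ⟨hx, hy⟩ hxy hDx hDy
      have hx' := hUsub hx
      have hy' := hVsub hy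
      have hz : (x, y) ∈ {z : E n × E n | _} := hUV (show (x, y) ∈ U₁ ×ˢ V₁ from ⟨hx'.1, hy'.1⟩)
      have e1 := rgp_ang G y (hx'.2.2 i) hDx
      have e2 := rgp_ang G x (hy'.2.2 i) hDy
      rw [e1, e2]
      exact hz hx'.2.1 hy'.2.1 ε δ hε0.le hδ0 hδr
  -- the limit
  have hL : Tendsto (fun i => C.s * sig n * V1 G (h i) - (C.F + ε * sig n) * G.per (h i) + t) atTop
      (𝓝 (C.s * sig n * VR n k R - (C.F + ε * sig n) * A0 + t)) :=
    ((hvol.const_mul _).sub (hP.const_mul _)).add_const _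
  have hRt : Tendsto (fun i => ((C.lam + ε) * G.per (h i) + e) * G.per (h i)) atTop
      (𝓝 (((C.lam + ε) * A0 + e) * A0)) := ((hP.const_mul _).add_const e).mul hP
  have hfin := le_of_tendsto_of_tendsto hL hRt hev
  have hbal := C.balance
  rw [← hA0] at hbal
  have h1 : ε * (A0 ^ 2 + sig n * A0) = t / 8 := by
    rw [hε]
    have : 0 < A0 ^ 2 + sig n * A0 := by positivity
    field_simp
  have h2 : e * A0 = t / 4 := by rw [he]; field_simp
  nlinarith

end Vale.Agent.P219.TPH
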